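import Vale.Agent.P144F.Zero
import Vale.Agent.P144A.Stmt

/-!
The smeared field of a translation-invariant state.
-/

namespace Vale.Agent.P144F

open Filter Topology MeasureTheory Vale.Agent.P144 Finset Vale.Agent.P144Z

theorem good_spins {D : Set ℂ} {n : ℕ} (hn : n ≠ 0) {x : Fin n → ℂ} (hx : Function.Injective x)
    (hD : ∀ i, x i ∈ D) : Good D (spins x) := by
  refine ⟨Nat.pos_of_ne_zero hn, hD, fun k => k.elim0, ?_⟩
  rintro (i | i) (j | j) h
  exacts [congrArg _ (hx h), j.elim0, i.elim0, i.elim0]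

theorem cr_zero (a : ℝ) (μ : Measure Config) [IsProbabilityMeasure μ] (x : Fin 0 → ℂ) :
    cr a μ x = 1 := by simp [cr]

theorem ud_of_loc {D K : Set ℂ} {E₀ E : Fam} {Z Z' : ℝ} (h : LocDiff D E₀ E Z Z')
    {μ μ₀ : ℝ → Measure Config} [∀ a, IsProbabilityMeasure (μ a)]
    [∀ a, IsProbabilityMeasure (μ₀ a)] (h₀ : Rep E₀ μ₀) (h₁ : Rep E μ) (hK : K ⊆ D)
    (hc : IsCompact K) : UD μ μ₀ Z K := by
  intro n ρ hρ η hη
  rcases eq_or_ne n 0 with rfl | hn
  · simp [cr_zero, hη.le]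
  set S : Set (Fin n → ℂ) := {x | ∀ i, x i ∈ K} ∩ {x | ∀ i j, i ≠ j → ρ ≤ ‖x i - x j‖} with hS
  have cS : IsCompact S := (isCompact_pi_infinite fun _ => hc).inter_right (by
    simp only [Set.ofPred_forall]
    exact isClosed_iInter fun i => isClosed_iInter fun j => isClosed_iInter fun _ =>
      isClosed_le continuous_const (by fun_prop))
  have k := (tendstoLocallyUniformlyOn_iff_tendstoUniformlyOn_of_compact
    (cS.prod (isCompact_singleton (x := (![] : Fin 0 → ℂ))))).1 ((h n 0 ![]).mono (by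
      rintro ⟨x, y⟩ ⟨hx, rfl⟩
      refine good_spins hn (fun i j e => by_contra fun hij => ?_) fun i => hK (hx.1 i)
      have := hx.2 i j hij
      rw [e, sub_self, norm_zero] at this
      linarith))
  filter_upwards [Metric.tendstoUniformlyOn_iff.1 k η hη, self_mem_nhdsWithin] with a ha a0 x x1 x2
  have := ha (x, ![]) ⟨⟨x1, x2⟩, rfl⟩
  rw [Pi.zero_apply, dist_zero_left, pow_zero, mul_one] at this
  rw [← corr_eq (h₁ a a0), ← corr_eq (h₀ a a0)]
  exact this.le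

theorem fl_shift {a s : ℝ} (ha : 0 < a) (hs : 0 < s) (z : ℂ) (t : Site) :
    fl (a / s) (z / s - ⟨a / s * t.1, a / s * t.2⟩) + t = fl a z := by
  have k : ∀ (u : ℝ) (t : ℤ), ⌊(u / s - a / s * t) / (a / s)⌋ + t = ⌊u / a⌋ := fun u t => by
    rw [← Int.floor_add_intCast]
    congr 1
    field_simp
    ring
  exact Prod.ext (by simpa [fl] using k z.re t.1) (by simpa [fl] using k z.im t.2)

theorem zb_plane {μ : Measure Config} [IsProbabilityMeasure μ]
    (ht : ∀ t : Site, μ.map (fun σ x => σ (x + t)) = μ) {μ₀ : ℝ → Measure Config} {Z : ℝ}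
    (hP : PB μ₀ (Metric.closedBall 0 4)) (hD : UD (fun _ => μ) μ₀ Z (Metric.closedBall 0 4))
    (K : Set ℂ) : ZB (fun _ => μ) K := by
  intro q k hq hk
  have hk' : (2 : ℝ) ≤ k := by exact_mod_cast hk
  obtain ⟨C, r, hC, hr, hP⟩ := hP
  have p0 : 0 < min r (1 / k) := by positivity
  obtain ⟨a₁, a0, H⟩ := (nhdsGT_basis 0).eventually_iff.1
    ((hP.and (hD (2 * q) (1 / k) (by positivity) 1 one_pos)).and (Ioo_mem_nhdsGT one_pos))
  refine ⟨1 + |Z ^ (2 * q)| * ∏ _i : Fin (2 * q), C / rt (min r (1 / k)), 2 / a₁, 1, one_pos, ?_⟩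
  filter_upwards [self_mem_nhdsWithin] with a ha s s1 _ x _ x2 x3
  replace ha : 0 < a := ha
  have hs : 0 < s := lt_of_lt_of_le (by positivity) s1
  have hb : 0 < a / s := by positivity
  obtain ⟨⟨h1, h2⟩, -, h3⟩ := H (show a / s ∈ Set.Ioo 0 a₁ from ⟨hb, by
    rw [div_mul_eq_mul_div, div_le_iff₀ a0] at s1
    rw [div_lt_iff₀ hs]
    linarith⟩)
  set i₀ : Fin (2 * q) := ⟨0, by omega⟩
  set t := fl a (x i₀) with ht'
  set y : Fin (2 * q) → ℂ := fun i => x i / s - ⟨a / s * t.1, a / s * t.2⟩ with hy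
  have e1 : ∀ i j, ‖y i - y j‖ = ‖x i - x j‖ / s := fun i j => by
    rw [hy, sub_sub_sub_cancel_right, ← sub_div, norm_div, Complex.norm_real, Real.norm_eq_abs,
      abs_of_pos hs]
  have y1 : ∀ i, y i ∈ Metric.closedBall (0 : ℂ) 4 := fun i => by
    have k1 := norm_fl hb (y i₀) 0
    have k2 : fl (a / s) (y i₀) = fl (a / s) 0 := by
      have := fl_shift ha hs (x i₀) t
      rw [← ht', add_eq_right] at this
      exact this.trans (by simp [fl]; rfl)
    have k3 := (e1 i i₀).trans_le ((div_le_iff₀ hs).2 (x2 i i₀))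
    have k4 := norm_sub_norm_le (y i) (y i₀)
    simp only [k2, zd, sub_self, Int.natAbs_zero, max_self, Nat.cast_zero, sub_zero] at k1
    rw [mem_closedBall_zero_iff]
    linarith
  have y2 : ∀ i j, i ≠ j → 1 / k ≤ ‖y i - y j‖ := fun i j h => by
    rw [e1, le_div_iff₀ hs, one_div_mul_eq_div]
    exact x3 i j h
  have e2 : cr a μ x * rt s ^ (2 * q) = cr (a / s) μ y := by
    have m : Measurable fun (σ : Config) x => σ (x + t) :=
      measurable_pi_lambda _ fun _ => measurable_pi_apply _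
    have := rt_pos hs
    have := rt_pos ha
    rw [cr_eq ha, cr_eq hb, rt_div ha.le hs.le]
    have m' : Measurable fun σ : Config => ∏ i, sp (σ (fl (a / s) (y i))) :=
      Finset.measurable_prod _ fun i _ => (measurable_of_countable sp).comp (measurable_pi_apply _)
    conv_rhs => rw [← ht t, integral_map m.aemeasurable m'.aestronglyMeasurable]
    simp only [hy, fl_shift ha hs, inv_div, div_pow, inv_pow]
    field_simp
  have k1 := h2 y y1 y2
  have k2 := mul_le_mul_of_nonneg_left (h1 _ y (fun _ => min r (1 / k)) y1 (fun _ => p0)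
    (fun _ => min_le_left _ _) fun i j h => (min_le_right _ _).trans (y2 i j h))
    (abs_nonneg (Z ^ (2 * q)))
  rw [← abs_mul] at k2
  rw [← abs_of_pos (pow_pos (rt_pos hs) (2 * q)), ← abs_mul, e2]
  linarith [abs_sub_abs_le_abs_sub (cr (a / s) μ y) (Z ^ (2 * q) * cr (a / s) (μ₀ (a / s)) y)]

theorem rep_plane {J : ℝ} {E : Fam} (h : PlaneFam J 0 (fun _ => 0) (Kc / J) E) :
    ∃ μ : ℝ → Measure Config, Rep E μ ∧ ∀ a, IsPlaneState J 0 (fun _ => 0) (Kc / J) (μ a) := by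
  obtain ⟨μ, h1, h2⟩ := h
  refine ⟨fun a => μ (if 0 < a then a else 1), fun a ha F => by simp only [h2, if_pos ha],
    fun a => h1 _ ?_⟩
  split_ifs with h
  exacts [h, one_pos]

theorem pb_plane {J : ℝ} (hJ : 0 < J) {μ : ℝ → Measure Config}
    (h : ∀ a, IsPlaneState J 0 (fun _ => 0) (Kc / J) (μ a)) (K : Set ℂ) : PB μ K := by
  obtain ⟨C, hC, hl⟩ := lb_gibbs hJ
  exact pb_of_lb (D := Set.univ) hC one_pos (fun _ _ _ _ => trivial) fun a _ => lb_plane hl (h a)

theorem cv_zero {D : Set ℂ} {E : Fam} {μ : ℝ → Measure Config} [∀ a, IsProbabilityMeasure (μ a)]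
    (hE : Rep E μ) {C : Pts → ℝ} (h0 : C (spins ![]) = 1) (hC : ∀ p, Good D p → Lim E p (C p))
    {K : Set ℂ} (hK : K ⊆ D) (hc : IsCompact K) (hP : PB μ K) : Gw K C ∧ Cv μ K 1 C := by
  obtain ⟨R, hR⟩ := hc.isBounded.exists_norm_le
  refine hP.cv hR fun n x hx x1 => ?_
  rcases eq_or_ne n 0 with rfl | hn
  · simp only [cr_zero, Subsingleton.elim x ![], h0, tendsto_const_nhds]
  · exact (hC _ (good_spins hn hx fun i => hK (x1 i))).congr'
      (eventually_mem_nhdsWithin.mono fun a ha => corr_eq (hE a ha) x)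

/-- The field in the plane. -/
theorem plane_field {J : ℝ} (hJ : 0 < J) {C : Pts → ℝ} (h0 : C (spins ![]) = 1)
    (hC : ∀ p, Good Set.univ p → ∀ E₀, PlaneFam J 0 (fun _ => 0) (Kc / J) E₀ → Lim E₀ p (C p))
    {E₁ : Fam} (h₁ : PlaneFam J 0 (fun _ => 0) (Kc / J) E₁) : ∃ ν, IsLaw Set.univ C ν ∧
      (∀ E₀, PlaneFam J 0 (fun _ => 0) (Kc / J) E₀ → FieldLim Set.univ E₀ 1 ν) ∧
      ∀ (μ : Measure Config) (Z Z' : ℝ), IsProbabilityMeasure μ →
        (∀ t : Site, μ.map (fun σ x => σ (x + t)) = μ) → LocDiff Set.univ E₁ (famOf μ) Z Z' →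
          FieldLim Set.univ (famOf μ) Z ν := by
  obtain ⟨μ₁, r1, p1⟩ := rep_plane h₁
  have := fun a => (p1 a).1
  have c1 := fun K hK hc => cv_zero (K := K) r1 h0 (fun p hp => hC p hp _ h₁) hK hc
    (pb_plane hJ p1 K)
  obtain ⟨ν, n1, n2⟩ := main_law c1
  refine ⟨ν, n1, fun E₀ h => ?_, fun μ Z Z' _ ht hL => n2 _ (fun _ => μ) Z (fun _ _ _ => rfl)
    fun K hK hc => ?_⟩
  · obtain ⟨μ₀, r0, p0⟩ := rep_plane h
    have := fun a => (p0 a).1
    exact n2 _ μ₀ 1 r0 fun K hK hc =>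
      (cv_zero r0 h0 (fun p hp => hC p hp _ h) hK hc (pb_plane hJ p0 K)).2
  · obtain ⟨R, hR⟩ := hc.isBounded.exists_norm_le
    have ud := fun K hc => ud_of_loc (K := K) (μ := fun _ => μ) hL r1 (fun _ _ _ => rfl)
      (Set.subset_univ _) hc
    exact (c1 K hK hc).2.of_diff (pb_plane hJ p1 K).zb.mb
      (zb_plane ht (pb_plane hJ p1 _) (ud _ (isCompact_closedBall _ _)) K).mb (ud K hc) hR

/-- The measures of a family of finite-volume expectations. -/
theorem rep_dom (J lam : ℝ) (V : Finset Site → ℝ) (β : ℝ) (D : Set ℂ) (b : Option (ℝ → Config)) :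
    ∃ μ : ℝ → Measure Config, (∀ a, IsProbabilityMeasure (μ a)) ∧
      ∀ a F, inDom J lam V β D b a F = ∫ σ, F σ ∂μ a := by
  choose μ h1 h2 using fun a => isSt_gibbs J lam V β (b.map fun η => η a) (disc D a)
  exact ⟨μ, h1, h2⟩

theorem pb_dom {J : ℝ} (hJ : 0 < J) {D K : Set ℂ} (ho : IsOpen D) (hb : Bornology.IsBounded D)
    (hK : K ⊆ D) (hc : IsCompact K) {b : Option (ℝ → Config)} {μ : ℝ → Measure Config}
    (h : Rep (crit J D b) μ) : PB μ K := by
  obtain ⟨C, hC, hl⟩ := lb_gibbs hJ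
  obtain ⟨r, hr, hs⟩ := hc.exists_cthickening_subset_open ho hK
  refine pb_of_lb (D := D) hC hr (fun z hz w hw => hs
    (Metric.mem_cthickening_of_dist_le w z r K hz (by rwa [dist_eq_norm]))) fun a ha => ?_
  have e : sites D a = disc D a := Set.ext fun v => (mem_disc hb ha v).symm
  rw [e, ← funext (h a ha)]
  exact hl _ _

/-- The field in a domain. -/
theorem dom_field {J : ℝ} (hJ : 0 < J) {D : Set ℂ} (ho : IsOpen D) (hb : Bornology.IsBounded D)
    {b : Option (ℝ → Config)} {C : Pts → ℝ} (h0 : C (spins ![]) = 1)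
    (hC : ∀ p, Good D p → Lim (crit J D b) p (C p)) : ∃ ν, IsLaw D C ν ∧
      FieldLim D (crit J D b) 1 ν ∧ ∀ (E : Fam) (μ : ℝ → Measure Config) (Z Z' : ℝ),
        (∀ a, IsProbabilityMeasure (μ a)) → Rep E μ → LocDiff D (crit J D b) E Z Z' →
          (∀ K ⊆ D, IsCompact K → ZB μ K) → FieldLim D E Z ν := by
  obtain ⟨μ₁, _, r1⟩ := rep_dom J 0 (fun _ => 0) (Kc / J) D b
  replace r1 : Rep (crit J D b) μ₁ := fun a _ => r1 a
  have c1 := fun K hK hc => cv_zero (K := K) r1 h0 hC hK hc (pb_dom hJ ho hb hK hc r1)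
  obtain ⟨ν, n1, n2⟩ := main_law c1
  refine ⟨ν, n1, n2 _ μ₁ 1 r1 fun K hK hc => (c1 K hK hc).2, fun E μ Z Z' _ hE hL hZ =>
    n2 _ μ Z hE fun K hK hc => ?_⟩
  obtain ⟨R, hR⟩ := hc.isBounded.exists_norm_le
  exact (c1 K hK hc).2.of_diff (pb_dom hJ ho hb hK hc r1).zb.mb (hZ K hK hc).mb
    (ud_of_loc hL r1 hE hK hc) hR

end Vale.Agent.P144F
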