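import Vale.Agent.P144F.Plane
import Mathlib.Topology.Algebra.Module.Cardinality

/-!
Reflection positivity.
-/

namespace Vale.Agent.P144F

open Filter Topology MeasureTheory Vale.Agent.P144 Finset Vale.Agent.P144Z

theorem exp_sp (k : ℝ) (s t : Bool) :
    Real.exp (k * (sp s * sp t)) = Real.sinh k * (sp s * sp t) + Real.cosh k := by
  cases s <;> cases t <;> simp [sp, Real.sinh_eq, Real.cosh_eq] <;> ring

theorem ev_rp {α ι : Type*} [Fintype α] [DecidableEq α] [Fintype ι] [DecidableEq ι] {e₁ e₂ : α → ι}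
    (hb : Function.Bijective (Sum.elim e₁ e₂)) {K : ι → ι → ℝ}
    (hs : ∀ i j, K (e₂ i) (e₂ j) = K (e₁ i) (e₁ j)) {k : α → ℝ} (hk : ∀ i, 0 ≤ k i)
    (h12 : ∀ i j, K (e₁ i) (e₂ j) = if i = j then k i else 0)
    (h21 : ∀ i j, K (e₂ i) (e₁ j) = if i = j then k i else 0) (g : (α → Bool) → ℝ) :
    0 ≤ ev K (fun _ => 0) fun s => g (fun i => s (e₂ i)) * g fun i => s (e₁ i) := by
  set w : (α → Bool) → ℝ := fun a => Real.exp (ex (fun i j => K (e₁ i) (e₁ j)) (fun _ => 0) a)
  have hw : ∀ s, P144.wt K (fun _ => 0) s = w (fun i => s (e₁ i)) * w (fun i => s (e₂ i)) *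
      ∑ T ∈ (univ : Finset α).powerset, ((∏ i ∈ T, Real.sinh (2 * k i)) *
        ∏ i ∈ univ \ T, Real.cosh (2 * k i)) *
          ((∏ i ∈ T, sp (s (e₁ i))) * ∏ i ∈ T, sp (s (e₂ i))) := fun s => by
    have e : ex K (fun _ => 0) s = ex (fun i j => K (e₁ i) (e₁ j)) (fun _ => 0) (fun i => s (e₁ i)) +
        ex (fun i j => K (e₁ i) (e₁ j)) (fun _ => 0) (fun i => s (e₂ i)) +
          ∑ i, 2 * k i * (sp (s (e₁ i)) * sp (s (e₂ i))) := by
      simp only [ex, ← hb.sum_comp, Fintype.sum_sum_type, Sum.elim_inl, Sum.elim_inr, hs, h12, h21,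
        zero_mul, sum_const_zero, add_zero, ite_mul, sum_ite_eq, mem_univ, if_true,
        sum_add_distrib, two_mul, add_mul, mul_comm (sp (s (e₂ _))) (sp (s (e₁ _)))]
      ring
    rw [P144.wt, e, Real.exp_add, Real.exp_add, Real.exp_sum]
    simp only [exp_sp, prod_add, prod_mul_distrib]
    exact congrArg _ (sum_congr rfl fun T _ => by ring)
  refine div_nonneg ?_ (Z_pos _ _).le
  simp only [hw, mul_sum]
  rw [sum_comm]
  refine sum_nonneg fun T _ => ?_
  set F : (α → Bool) → ℝ := fun a => g a * w a * ∏ i ∈ T, sp (a i) with hF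
  have hs : ∑ s : ι → Bool, F (fun i => s (e₁ i)) * F (fun i => s (e₂ i)) =
      (∑ a, F a) * ∑ b, F b := by
    rw [sum_mul_sum, ← Fintype.sum_prod_type']
    exact Fintype.sum_equiv ((Equiv.arrowCongr (Equiv.ofBijective _ hb).symm (Equiv.refl Bool)).trans
      (Equiv.sumArrowEquivProdArrow α α Bool)) _ _ fun s => rfl
  have c : 0 ≤ (∏ i ∈ T, Real.sinh (2 * k i)) * ∏ i ∈ univ \ T, Real.cosh (2 * k i) :=
    mul_nonneg (prod_nonneg fun i _ => Real.sinh_nonneg_iff.2 (by linarith [hk i]))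
      (prod_nonneg fun i _ => (Real.cosh_pos _).le)
  refine (mul_nonneg c (mul_self_nonneg (∑ a, F a))).trans_eq ?_
  rw [← hs, mul_sum]
  exact sum_congr rfl fun s _ => by simp only [hF]; ring

/-- The reflection that exchanges the rows `0` and `-1`. -/
def th (v : Site) : Site := (v.1, -1 - v.2)

/-- A symmetric box. -/
noncomputable def sb (M : ℕ) : Finset Site := Icc (-M : ℤ) M ×ˢ Icc (-1 - M : ℤ) M

theorem gibbs_rp {J β : ℝ} (hJ : 0 ≤ J) (hβ : 0 ≤ β) (M : ℕ) {G : Config → ℝ}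
    (hG : ∀ σ σ', (∀ v ∈ Icc (-M : ℤ) M ×ˢ Icc (0 : ℤ) M, σ v = σ' v) → G σ = G σ') :
    0 ≤ gibbs J 0 (fun _ => 0) β none (sb M) fun σ => G (fun v => σ (th v)) * G σ := by
  set H := Icc (-M : ℤ) M ×ˢ Icc (0 : ℤ) M with hH
  have mH : ∀ v : Site, v ∈ H ↔ (-M ≤ v.1 ∧ v.1 ≤ M) ∧ 0 ≤ v.2 ∧ v.2 ≤ M := fun v => by
    simp [hH]
  have mS : ∀ v : Site, v ∈ sb M ↔ (-M ≤ v.1 ∧ v.1 ≤ M) ∧ -1 - M ≤ v.2 ∧ v.2 ≤ M := fun v => by
    simp only [sb, mem_product, mem_Icc]
  have m1 : ∀ v ∈ H, v ∈ sb M := fun v hv => by rw [mH] at hv; rw [mS]; omega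
  have m2 : ∀ v ∈ H, th v ∈ sb M := fun v hv => by rw [mH] at hv; rw [mS, th]; dsimp only; omega
  let e₁ : H → sb M := fun v => ⟨v, m1 v v.2⟩
  let e₂ : H → sb M := fun v => ⟨th v, m2 v v.2⟩
  have hb : Function.Bijective (Sum.elim e₁ e₂) := by
    constructor
    · rintro (i | i) (j | j) h <;> have h1 := (mH _).1 i.2 <;> have h2 := (mH _).1 j.2 <;>
        simp only [Sum.elim_inl, Sum.elim_inr, e₁, e₂, Subtype.mk.injEq, th, Prod.ext_iff] at h
      · exact congrArg _ (Subtype.ext (Prod.ext h.1 h.2))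
      · omega
      · omega
      · exact congrArg _ (Subtype.ext (Prod.ext h.1 (by omega)))
    · rintro ⟨v, hv⟩
      have h1 := (mS v).1 hv
      rcases le_or_gt 0 v.2 with h | h
      · exact ⟨Sum.inl ⟨v, (mH v).2 (by omega)⟩, rfl⟩
      · exact ⟨Sum.inr ⟨th v, (mH _).2 (by simp only [th]; omega)⟩, Subtype.ext (by simp [e₂, th])⟩
  have cr : ∀ i j : H, β / 2 * cpl J 0 i (th j) =
      if i = j then (if i.1.2 = 0 then β / 2 * J else 0) else 0 := fun i j => by
    have h1 := (mH _).1 i.2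
    have h2 := (mH _).1 j.2
    have h3 : dsq i (th j) = 1 ↔ i = j ∧ i.1.2 = 0 := by
      simp only [dsq, th, Subtype.ext_iff, Prod.ext_iff]
      constructor
      · intro h
        have a1 : i.1.2 + j.1.2 ≤ 0 := by nlinarith [sq_nonneg (i.1.1 - j.1.1)]
        have a2 : i.1.2 = 0 := by omega
        have a3 : j.1.2 = 0 := by omega
        rw [a2, a3] at h
        exact ⟨⟨by nlinarith, by omega⟩, a2⟩
      · rintro ⟨⟨a1, a2⟩, a3⟩
        rw [← a1, ← a2, a3]
        simp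
    simp only [cpl, h3, ite_self, mul_ite, mul_zero, ite_and]
  rw [H436.gibbs_free0]
  refine (ev_rp hb (K := P144.KK β J 0 (sb M)) (k := fun i => if i.1.2 = 0 then β / 2 * J else 0)
    (fun i j => ?_) (fun i => by positivity) cr (fun i j => ?_)
    fun a => G (exs H (fun _ => true) a)).trans_eq (congrArg _ (funext fun s => ?_))
  · have : dsq (th i) (th j) = dsq i j := by simp only [dsq, th]; ring
    simp only [P144.KK, cpl, e₁, e₂, this]
  · refine (congrArg _ (cpl_comm _ _ _ _)).trans ((cr j i).trans ?_)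
    by_cases h : i = j
    · rw [h]
    · rw [if_neg h, if_neg (Ne.symm h)]
  · congr 1 <;> refine hG _ _ fun v hv => ?_
    · rw [exs_mem hv, exs_mem (m2 v hv)]
    · rw [exs_mem hv, exs_mem (m1 v hv)]

/-- Polynomials in the spins of `A`. -/
def Pl (A : Set Site) : Subalgebra ℝ (Config → ℝ) :=
  Algebra.adjoin ℝ ((fun x σ => sp (σ x)) '' A)

theorem Pl.spin {A : Set Site} {x : Site} (hx : x ∈ A) : (fun σ : Config => sp (σ x)) ∈ Pl A :=
  Algebra.subset_adjoin ⟨x, hx, rfl⟩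

theorem Pl.loc {A : Set Site} {F : Config → ℝ} (h : F ∈ Pl A) :
    ∃ T : Finset Site, ↑T ⊆ A ∧ ∀ σ σ', (∀ v ∈ T, σ v = σ' v) → F σ = F σ' := by
  induction h using Algebra.adjoin_induction with
  | mem F h =>
    obtain ⟨x, hx, rfl⟩ := h
    exact ⟨{x}, by simpa using hx, fun σ σ' h => by simp only [h x (mem_singleton_self x)]⟩
  | algebraMap c => exact ⟨∅, by simp, fun _ _ _ => rfl⟩
  | add F G _ _ h h' =>
    obtain ⟨T, t1, t2⟩ := h
    obtain ⟨T', t1', t2'⟩ := h'
    exact ⟨T ∪ T', by simp [t1, t1'], fun σ σ' h => congrArg₂ (· + ·)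
      (t2 σ σ' fun v hv => h v (mem_union_left _ hv)) (t2' σ σ' fun v hv => h v (mem_union_right _ hv))⟩
  | mul F G _ _ h h' =>
    obtain ⟨T, t1, t2⟩ := h
    obtain ⟨T', t1', t2'⟩ := h'
    exact ⟨T ∪ T', by simp [t1, t1'], fun σ σ' h => congrArg₂ (· * ·)
      (t2 σ σ' fun v hv => h v (mem_union_left _ hv)) (t2' σ σ' fun v hv => h v (mem_union_right _ hv))⟩

theorem Pl.th {A : Set Site} {F : Config → ℝ} (h : F ∈ Pl A) :
    (fun σ => F fun v => σ (th v)) ∈ Pl Set.univ := by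
  induction h using Algebra.adjoin_induction with
  | mem F h =>
    obtain ⟨x, -, rfl⟩ := h
    exact Pl.spin trivial
  | algebraMap c => exact Subalgebra.algebraMap_mem _ c
  | add F G _ _ h h' => exact add_mem h h'
  | mul F G _ _ h h' => exact mul_mem h h'

theorem bm_sp (x : Site) : Bm fun σ => sp (σ x) :=
  ⟨(measurable_of_countable sp).comp (measurable_pi_apply x), 1, fun _ => (abs_sp _).le⟩

theorem Pl.bm {A : Set Site} {F : Config → ℝ} (h : F ∈ Pl A) : Bm F := by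
  induction h using Algebra.adjoin_induction with
  | mem F h =>
    obtain ⟨x, -, rfl⟩ := h
    exact bm_sp x
  | algebraMap c => exact Bm.const c
  | add F G _ _ h h' => exact h.add h'
  | mul F G _ _ h h' => exact h.mul h'

theorem Pl.tendsto {ν : ℕ → Measure Config} {μ : Measure Config} [∀ k, IsProbabilityMeasure (ν k)]
    [IsProbabilityMeasure μ] (hl : ∀ A : Finset Site, Tendsto (fun k => ∫ σ, ∏ x ∈ A, sp (σ x) ∂ν k)
      atTop (𝓝 (∫ σ, ∏ x ∈ A, sp (σ x) ∂μ))) {A : Set Site} {F : Config → ℝ} (h : F ∈ Pl A) :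
    Tendsto (fun k => ∫ σ, F σ ∂ν k) atTop (𝓝 (∫ σ, F σ ∂μ)) := by
  have h' : F ∈ Submodule.span ℝ (Submonoid.closure ((fun x (σ : Config) => sp (σ x)) '' A) :
      Set (Config → ℝ)) := by
    rw [← Algebra.adjoin_eq_span]
    exact h
  suffices H : Bm F ∧ Tendsto (fun k => ∫ σ, F σ ∂ν k) atTop (𝓝 (∫ σ, F σ ∂μ)) from H.2
  clear h
  induction h' using Submodule.span_induction with
  | mem F h =>
    have : ∃ A : Finset Site, F = fun σ => ∏ x ∈ A, sp (σ x) := by
      induction h using Submonoid.closure_induction with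
      | mem F h =>
        obtain ⟨x, -, rfl⟩ := h
        exact ⟨{x}, by simp⟩
      | one => exact ⟨∅, rfl⟩
      | mul F G _ _ h h' =>
        obtain ⟨A, rfl⟩ := h
        obtain ⟨B, rfl⟩ := h'
        obtain ⟨T, -, hT⟩ := exists_odd (A.disjSum B) (Sum.elim id id)
        exact ⟨T, funext fun σ => by simpa [prod_disjSum] using hT σ⟩
    obtain ⟨A, rfl⟩ := this
    exact ⟨Bm.prod _ fun x _ => bm_sp x, hl A⟩
  | zero => exact ⟨Bm.const 0, by simp⟩
  | add F G _ _ h h' =>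
    refine ⟨h.1.add h'.1, ?_⟩
    simp only [Pi.add_apply, integral_add (h.1.int _) (h'.1.int _)]
    exact h.2.add h'.2
  | smul c F _ h =>
    refine ⟨(Bm.const c).mul h.1, ?_⟩
    simp only [Pi.smul_apply, smul_eq_mul, integral_const_mul]
    exact h.2.const_mul c

theorem plane_rp {J : ℝ} (hJ : 0 < J) {μ : Measure Config}
    (hμ : IsPlaneState J 0 (fun _ => 0) (Kc / J) μ) {G : Config → ℝ} (hG : G ∈ Pl {v | 0 ≤ v.2}) :
    0 ≤ ∫ σ, G (fun v => σ (th v)) * G σ ∂μ := by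
  have := hμ.1
  choose ν _ hν using fun M => isSt_gibbs J 0 (fun _ => 0) (Kc / J) none (sb M)
  have hl : ∀ A : Finset Site, Tendsto (fun k => ∫ σ, ∏ x ∈ A, sp (σ x) ∂ν k) atTop
      (𝓝 (∫ σ, ∏ x ∈ A, sp (σ x) ∂μ)) := fun A => by
    refine (St.plane_cl hJ hμ A).symm ▸ Metric.tendsto_atTop.2 fun ε hε => ?_
    obtain ⟨M, hM⟩ := St.unif hJ A (half_pos hε)
    refine ⟨M, fun k hk => ?_⟩
    rw [← hν, Real.dist_eq]
    refine (hM (sb k) (fun v hv => ?_) _ none).trans_lt (half_lt_self hε)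
    rw [P144.mem_box] at hv
    simp only [sb, mem_product, mem_Icc]
    omega
  obtain ⟨T, t1, t2⟩ := Pl.loc hG
  refine ge_of_tendsto (Pl.tendsto hl (mul_mem (Pl.th hG)
    (Algebra.adjoin_mono (Set.image_mono (Set.subset_univ _)) hG))) ?_
  filter_upwards [eventually_ge_atTop (T.sup fun v => zd v 0)] with M hM
  refine (gibbs_rp hJ.le (div_pos H436.kc_pos hJ).le M fun σ σ' h => t2 σ σ' fun v hv =>
    h v ?_).trans_eq (hν M _)
  have h1 : zd v 0 ≤ M := (le_sup (f := fun v => zd v 0) hv).trans hM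
  have h2 : 0 ≤ v.2 := t1 hv
  simp only [zd, Prod.fst_zero, Prod.snd_zero, sub_zero] at h1
  simp only [mem_product, mem_Icc]
  omega

theorem fl_conj {a : ℝ} {z : ℂ} (h : ∀ k : ℤ, z.im / a ≠ k) :
    fl a (starRingEnd ℂ z) = th (fl a z) := by
  refine Prod.ext rfl ?_
  simp only [fl, th, Complex.conj_im, neg_div, Int.floor_neg]
  rw [(Int.ceil_eq_floor_add_one_iff_notMem _).2 fun ⟨k, hk⟩ => h k hk.symm]
  ring

theorem freq_irr {ι : Type*} [Countable ι] (t : ι → ℝ) (ht : ∀ i, t i ≠ 0) :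
    ∃ᶠ a in 𝓝[>] (0 : ℝ), ∀ i (k : ℤ), t i / a ≠ k := by
  have d := (Set.countable_range fun p : ι × ℤ => t p.1 / p.2).dense_compl ℝ
  refine (nhdsGT_basis 0).frequently_iff.2 fun ε hε => ?_
  obtain ⟨a, a1, a2⟩ := d.exists_mem_open isOpen_Ioo (Set.nonempty_Ioo.2 hε)
  refine ⟨a, a2, fun i k e => a1 ⟨(i, k), ?_⟩⟩
  have := a2.1.ne'
  have := ht i
  simp only [← e]
  field_simp

theorem good_refl {p q : Pts} (hp : p.n + p.m = 0 ∨ Good {z | 0 < z.im} p)
    (hq : q.n + q.m = 0 ∨ Good {z | 0 < z.im} q) :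
    (refl p q).n + (refl p q).m = 0 ∨ Good Set.univ (refl p q) := by
  have k : ∀ p : Pts, p.n + p.m = 0 ∨ Good {z | 0 < z.im} p → (∀ u, 0 < (Sum.elim p.x p.y u).im) ∧
      Function.Injective (Sum.elim p.x p.y) := by
    rintro p (h | h)
    · have e : IsEmpty (Fin p.n ⊕ Fin p.m) :=
        ⟨by rintro (i | i) <;> have := i.2 <;> omega⟩
      exact ⟨fun u => e.elim u, fun u => e.elim u⟩
    · exact ⟨by rintro (i | i); exacts [h.2.1 i, h.2.2.1 i], h.2.2.2⟩
  obtain ⟨p1, p2⟩ := k p hp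
  obtain ⟨q1, q2⟩ := k q hq
  refine (Nat.eq_zero_or_pos _).imp_right fun h => ⟨h, fun _ => trivial, fun _ => trivial, ?_⟩
  have inj : Function.Injective (Sum.elim (fun u => starRingEnd ℂ (Sum.elim p.x p.y u))
      (Sum.elim q.x q.y)) := (star_injective.comp p2).sumElim q2 fun u v e => by
    have := congrArg Complex.im e
    change -(Sum.elim p.x p.y u).im = _ at this
    linarith [p1 u, q1 v]
  have e : Sum.elim (refl p q).x (refl p q).y = Sum.elim
      (fun u => starRingEnd ℂ (Sum.elim p.x p.y u)) (Sum.elim q.x q.y) ∘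
        Equiv.sumSumSumComm _ _ _ _ ∘ Sum.map finSumFinEquiv.symm finSumFinEquiv.symm := by
    funext u
    rcases u with u | u <;> induction u using Fin.addCases <;> simp [refl]
  rw [e]
  exact inj.comp ((Equiv.injective _).comp
    (finSumFinEquiv.symm.injective.sumMap finSumFinEquiv.symm.injective))

theorem rp_plane {J : ℝ} (hJ : 0 < J) {C : Pts → ℝ} (h0 : ∀ p, p.n + p.m = 0 → C p = 1)
    {E : Fam} (hE : PlaneFam J 0 (fun _ => 0) (Kc / J) E)
    (hC : ∀ p, Good Set.univ p → Lim E p (C p) ∧ ∀ j, C { p with j := j } = C p) : RP C := by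
  intro N p c hp
  obtain ⟨μ, r, s⟩ := rep_plane hE
  have := fun a => (s a).1
  set P : Fin N → Fin N → Pts := fun k l => { refl (p k) (p l) with j := fun _ => 0 } with hP
  have lim : ∀ k l, Tendsto (fun a => corr a (E a) (P k l)) (𝓝[>] 0)
      (𝓝 (C (refl (p k) (p l)))) := fun k l => by
    rcases good_refl (hp k) (hp l) with h | h
    · rw [h0 _ h]
      refine tendsto_const_nhds.congr' (eventually_mem_nhdsWithin.mono fun a ha => ?_)
      have e1 : IsEmpty (Fin (P k l).n) := ⟨fun i => by have := i.2; simp only [hP] at this; omega⟩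
      have e2 : IsEmpty (Fin (P k l).m) := ⟨fun i => by have := i.2; simp only [hP] at this; omega⟩
      simp [corr, r a ha]
    · exact (hC _ h).2 (fun _ => 0) ▸ (hC (P k l) h).1
  have pos : ∀ k u, 0 < (Sum.elim (p k).x (p k).y u).im := fun k u => by
    rcases hp k with h | h
    · rcases u with i | i <;> have := i.2 <;> omega
    · rcases u with i | i
      exacts [h.2.1 i, h.2.2.1 i]
  refine isClosed_Ici.mem_of_frequently_of_tendsto ?_ (tendsto_finsetSum univ fun k _ =>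
    tendsto_finsetSum univ fun l _ => (lim k l).const_mul (c k * c l))
  refine ((freq_irr (ι := Σ k, Fin (p k).n ⊕ Fin (p k).m)
    (fun u => (Sum.elim (p u.1).x (p u.1).y u.2).im) fun u => (pos _ _).ne').and_eventually
      eventually_mem_nhdsWithin).mono fun a ⟨hi, ha⟩ => ?_
  set e := ∫ τ, sp (τ 0) * sp (τ (dir 0)) ∂μ a with he
  have me : ∀ v, ∫ τ, sp (τ v) * sp (τ (v + dir 0)) ∂μ a = e := fun v => by
    have m : Measurable fun (σ : Config) x => σ (x + v) :=
      measurable_pi_lambda _ fun _ => measurable_pi_apply _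
    rw [he]
    conv_rhs => rw [← (s a).2.1 v, integral_map m.aemeasurable
      ((bm_sp 0).mul (bm_sp (dir 0))).1.aestronglyMeasurable]
    simp only [zero_add, add_comm v]
  set F : Fin N → Config → ℝ := fun k σ => (∏ i, a ^ (-(1 / 8) : ℝ) * sp (σ (fl a ((p k).x i)))) *
    ∏ i, a⁻¹ * (sp (σ (fl a ((p k).y i))) * sp (σ (fl a ((p k).y i) + dir 0)) - e) with hF
  have up : ∀ z : ℂ, 0 < z.im → 0 ≤ (fl a z).2 := fun z hz =>
    Int.floor_nonneg.2 (div_nonneg hz.le (le_of_lt ha))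
  have pF : ∀ k, F k ∈ Pl {v | 0 ≤ v.2} := fun k => by
    have k1 := prod_mem (S := Pl {v | 0 ≤ v.2}) (t := univ) fun i _ => Subalgebra.smul_mem _
      (Pl.spin (up _ (pos k (Sum.inl i)))) (a ^ (-(1 / 8) : ℝ))
    have k2 := prod_mem (S := Pl {v | 0 ≤ v.2}) (t := univ) fun i _ => Subalgebra.smul_mem _
      (sub_mem (mul_mem (Pl.spin (up _ (pos k (Sum.inr i)))) (Pl.spin
        (x := fl a ((p k).y i) + dir 0) (by simpa [dir] using up _ (pos k (Sum.inr i)))))
        (Subalgebra.algebraMap_mem _ e)) a⁻¹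
    convert mul_mem k1 k2 using 1
    funext σ
    simp [hF]
  have pG : (fun σ => ∑ k, c k * F k σ) ∈ Pl {v | 0 ≤ v.2} := by
    convert sum_mem (S := Pl {v | 0 ≤ v.2}) (t := univ) fun k _ =>
      Subalgebra.smul_mem _ (pF k) (c k) using 1
    funext σ
    simp
  have bm : ∀ k l, Bm fun σ => c k * c l * ((F k fun v => σ (th v)) * F l σ) := fun k l =>
    (Bm.const _).mul ((Pl.bm (Pl.th (pF k))).mul (Pl.bm (pF l)))
  have key : ∀ k l, ∫ σ, (F k fun v => σ (th v)) * F l σ ∂μ a = corr a (E a) (P k l) := ?_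
  · refine Set.mem_Ici.2 ((plane_rp hJ (s a) pG).trans_eq ?_)
    have e2 : ∀ σ : Config, (∑ k, c k * F k fun v => σ (th v)) * ∑ k, c k * F k σ =
        ∑ k, ∑ l, c k * c l * ((F k fun v => σ (th v)) * F l σ) := fun σ =>
      (sum_mul_sum _ _ _ _).trans (sum_congr rfl fun k _ => sum_congr rfl fun l _ =>
        mul_mul_mul_comm _ _ _ _)
    rw [funext e2, integral_finsetSum _ fun k _ => (Bm.sum _ fun l _ => bm k l).int _]
    refine sum_congr rfl fun k _ => ?_
    rw [integral_finsetSum _ fun l _ => (bm k l).int _]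
    exact sum_congr rfl fun l _ => by rw [integral_const_mul, key]
  intro k l
  dsimp only [corr, P, refl]
  rw [r a ha]
  refine integral_congr_ae (Eventually.of_forall fun σ => ?_)
  have t : ∀ v, th (v + dir 0) = th v + dir 0 := fun v => by simp [th, dir]
  have c1 := fun i => fl_conj (hi ⟨k, Sum.inl i⟩)
  have c2 := fun i => fl_conj (hi ⟨k, Sum.inr i⟩)
  simp only [Sum.elim_inl, Sum.elim_inr] at c1 c2
  simp only [hF, r a ha, me, Fin.prod_univ_add, Fin.append_left, Fin.append_right, c1, c2, t]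
  ring

end Vale.Agent.P144F
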