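import Vale.Agent.P144F.Law
import Vale.Agent.P144D.MD.Main
import Vale.Agent.P144Z.St.Uniq

/-!
The pointwise bound on the spin correlations of the critical nearest-neighbour model.
-/

namespace Vale.Agent.P144F

open Filter Topology MeasureTheory Vale.Agent.P144 Finset Vale.Agent.P144Z

theorem sp_sq (b : Bool) : sp b * sp b = 1 := by cases b <;> simp [sp]

theorem exists_odd {ι : Type*} (s : Finset ι) (u : ι → Site) :
    ∃ A : Finset Site, (∀ x ∈ A, ∃ i ∈ s, u i = x) ∧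
      ∀ σ : Config, ∏ i ∈ s, sp (σ (u i)) = ∏ x ∈ A, sp (σ x) := by
  classical
  induction s using Finset.induction_on with
  | empty => exact ⟨∅, by simp, by simp⟩
  | insert i s hi ih =>
    obtain ⟨A, h1, h2⟩ := ih
    have h3 : ∀ x ∈ A, ∃ j ∈ insert i s, u j = x := fun x hx =>
      (h1 x hx).imp fun j hj => ⟨mem_insert_of_mem hj.1, hj.2⟩
    by_cases h : u i ∈ A
    · refine ⟨A.erase (u i), fun x hx => h3 x (mem_of_mem_erase hx), fun σ => ?_⟩
      rw [prod_insert hi, h2, ← mul_prod_erase A _ h, ← mul_assoc, sp_sq, one_mul]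
    · refine ⟨insert (u i) A, fun x hx => ?_, fun σ => by rw [prod_insert hi, prod_insert h, h2]⟩
      rcases mem_insert.1 hx with rfl | hx
      exacts [⟨i, mem_insert_self _ _, rfl⟩, h3 x hx]

theorem IsSt.abs_le {E : (Config → ℝ) → ℝ} (h : IsSt E) {F : Config → ℝ} {c : ℝ}
    (hF : ∀ σ, |F σ| ≤ c) : |E F| ≤ c := by
  obtain ⟨μ, _, h⟩ := h
  simpa [h] using norm_integral_le_of_norm_le_const (μ := μ) (f := F) (Eventually.of_forall hF)

/-- The bound on the lattice: the sites of `G` are isolated at the scales `m i`. -/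
def LB (C : ℝ) (E : (Config → ℝ) → ℝ) (Λ : Set Site) : Prop :=
  ∀ (n : ℕ) (u : Fin n → Site) (m : Fin n → ℕ) (G : Finset (Fin n)), (∀ i, u i ∈ Λ) →
    (∀ i ∈ G, ∀ v, zd v (u i) ≤ m i → v ∈ Λ) → (∀ i ∈ G, ∀ j, j ≠ i → 2 * m i + 1 < zd (u i) (u j)) →
      |E fun σ => ∏ i, sp (σ (u i))| ≤ ∏ i ∈ G, C / rt (m i + 1)

theorem zd_tri (u v w : Site) : zd u w ≤ zd u v + zd v w := by
  unfold zd
  omega

theorem zd_comm (u v : Site) : zd u v = zd v u := by
  unfold zd
  omega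

theorem cpl_zero (J : ℝ) {u v : Site} (h : 1 < zd u v) : cpl J 0 u v = 0 := by
  have h4 : dsq u v ≠ 1 := by
    intro h'
    unfold dsq at h'
    have a1 : u.1 - v.1 ≤ 1 := by nlinarith [sq_nonneg (u.2 - v.2)]
    have a2 : -1 ≤ u.1 - v.1 := by nlinarith [sq_nonneg (u.2 - v.2)]
    have a3 : u.2 - v.2 ≤ 1 := by nlinarith [sq_nonneg (u.1 - v.1)]
    have a4 : -1 ≤ u.2 - v.2 := by nlinarith [sq_nonneg (u.1 - v.1)]
    unfold zd at h
    omega
  unfold cpl
  rw [if_neg h4, ite_self]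

open H436 St MD in
theorem lb_gibbs {J : ℝ} (hJ : 0 < J) : ∃ C, 1 ≤ C ∧ ∀ (b : Option Config) (Λ : Finset Site),
    LB C (gibbs J 0 (fun _ => 0) (Kc / J) b Λ) Λ := by
  obtain ⟨C, hC, h⟩ := mag_decay' hJ
  refine ⟨C + 1, by linarith, fun b Λ n u m G h1 h2 h3 => ?_⟩
  obtain ⟨A₂, a1, a2⟩ := exists_odd (univ \ G) u
  have inj : Set.InjOn u G := fun i hi j _ e => by_contra fun h => by
    have := h3 i hi j (Ne.symm h)
    simp [e, zd] at this
  set rad : Site → ℕ := fun x => (G.filter fun i => u i = x).sup m with hrad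
  have er : ∀ i ∈ G, rad (u i) = m i := fun i hi => by
    have : (G.filter fun j => u j = u i) = {i} := by
      ext j
      simp only [mem_filter, mem_singleton]
      exact ⟨fun h => inj h.1 hi h.2, fun h => by rw [h]; exact ⟨hi, rfl⟩⟩
    simp [hrad, this]
  set D₁ := (G.image u).biUnion fun x => boxAt x (rad x) with hD₁
  have m1 : ∀ v ∈ D₁, ∃ i ∈ G, zd v (u i) ≤ m i := fun v hv => by
    obtain ⟨x, hx, hv⟩ := mem_biUnion.1 hv
    obtain ⟨i, hi, rfl⟩ := mem_image.1 hx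
    exact ⟨i, hi, er i hi ▸ mem_boxAt_zd.1 hv⟩
  have far : ∀ v ∈ D₁, ∀ w ∈ A₂, 1 < zd v w := fun v hv w hw => by
    obtain ⟨i, hi, hv⟩ := m1 v hv
    obtain ⟨j, hj, rfl⟩ := a1 w hw
    have := h3 i hi j fun e => (mem_sdiff.1 hj).2 (e ▸ hi)
    have := zd_tri (u i) v (u j)
    have := zd_comm (u i) v
    omega
  have dj : Disjoint D₁ A₂ := disjoint_left.2 fun v hv hw => by simpa [zd] using far v hv v hw
  have self : ∀ x ∈ G.image u, x ∈ boxAt x (rad x) := fun x _ => mem_boxAt_zd.2 (by simp [zd])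
  have sub : G.image u ⊆ D₁ := fun x hx => mem_biUnion.2 ⟨x, hx, self x hx⟩
  have e : (fun σ : Config => ∏ i, sp (σ (u i))) = fun σ => ∏ x ∈ G.image u ∪ A₂, sp (σ x) := by
    funext σ
    rw [prod_union (dj.mono_left sub), prod_image inj, ← a2, mul_comm, prod_sdiff (subset_univ G)]
  have sep : ∀ x ∈ G.image u, ∀ y ∈ G.image u, x ≠ y → ∀ v ∈ boxAt x (rad x),
      ∀ w ∈ boxAt y (rad y), 1 < zd v w := fun x hx y hy hne v hv w hw => by
    obtain ⟨i, hi, rfl⟩ := mem_image.1 hx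
    obtain ⟨j, hj, rfl⟩ := mem_image.1 hy
    rw [er _ hi, mem_boxAt_zd] at hv
    rw [er _ hj, mem_boxAt_zd] at hw
    have k1 := h3 i hi j fun e => hne (by rw [e])
    have k2 := h3 j hj i fun e => hne (by rw [e])
    have := zd_tri (u i) v (u j)
    have := zd_tri v w (u j)
    have := zd_comm (u i) v
    have := zd_comm (u i) (u j)
    omega
  rw [e, ← gibbs_V0 J _ Vk]
  refine (abs_le_plus (div_pos kc_pos hJ).le hJ.le le_rfl b (D := D₁ ∪ A₂)
    (union_subset (fun v hv => ?_) fun v hv => ?_) (union_subset_union_left sub)).trans ?_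
  · obtain ⟨i, hi, hv⟩ := m1 v hv
    exact h2 i hi v hv
  · obtain ⟨j, -, rfl⟩ := a1 v hv
    exact h1 j
  rw [plus_prodA dj (fun v hv w hw => cpl_zero J (far v hv w hw)) sub subset_rfl,
    plus_biUnion _ _ self (fun x hx y hy hne => disjoint_left.2 fun v hv hw => by
      simpa [zd] using sep x hx y hy hne v hv v hw)
      fun x hx y hy hne v hv w hw => cpl_zero J (sep x hx y hy hne v hv w hw), prod_image inj]
  have nn : ∀ i, 0 ≤ gibbs J 0 Vk (Kc / J) (some bcp) (boxAt (u i) (rad (u i)))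
      fun σ => sp (σ (u i)) := fun i => mag_nonneg hJ _ _
  have o1 : gibbs J 0 Vk (Kc / J) (some bcp) A₂ (fun σ => ∏ z ∈ A₂, sp (σ z)) ≤ 1 :=
    (le_abs_self _).trans ((isSt_gibbs _ _ _ _ _ _).abs_le fun σ =>
      (abs_prod_le A₂ (u := fun z => sp (σ z)) fun x => (abs_sp _).le).trans_eq (one_pow _))
  refine (mul_le_of_le_one_right (prod_nonneg fun i _ => nn i) o1).trans
    (prod_le_prod (fun i _ => nn i) fun i hi => ?_)
  rw [er i hi]
  refine ((mag_boxAt (J := J) (m i) (u i)).trans_le (h _)).trans ?_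
  rw [rt_inv (by positivity), ← div_eq_mul_inv]
  exact div_le_div_of_nonneg_right (by linarith) (rt_pos (by positivity)).le

theorem lb_plane {J C : ℝ}
    (h : ∀ (b : Option Config) (Λ : Finset Site), LB C (gibbs J 0 (fun _ => 0) (Kc / J) b Λ) Λ)
    {μ : Measure Config} (hμ : IsPlaneState J 0 (fun _ => 0) (Kc / J) μ) :
    LB C (fun F => ∫ σ, F σ ∂μ) Set.univ := by
  obtain ⟨-, -, Λ, b, hΛ, hl⟩ := hμ
  intro n u m G _ _ h3
  obtain ⟨A, -, a2⟩ := exists_odd univ u
  simp only [a2]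
  refine le_of_tendsto (hl A).abs ?_
  filter_upwards [(eventually_all_finset (univ.biUnion fun i => H436.boxAt (u i) (m i))).2
    fun x _ => hΛ x] with k hk
  have k1 : ∀ i v, zd v (u i) ≤ m i → v ∈ Λ k := fun i v hv =>
    hk v (mem_biUnion.2 ⟨i, mem_univ _, MD.mem_boxAt_zd.2 hv⟩)
  simpa only [a2] using h (b k) (Λ k) n u m G (fun i => k1 i _ (by simp [zd]))
    (fun i _ => k1 i) h3

theorem norm_fl {a : ℝ} (ha : 0 < a) (z w : ℂ) : ‖z - w‖ ≤ 2 * (a * (zd (fl a z) (fl a w) + 1)) := by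
  have k : ∀ u v : ℝ, |u - v| ≤ a * ((⌊u / a⌋ - ⌊v / a⌋).natAbs + 1) := fun u v => by
    have h1 := Int.floor_le (u / a)
    have h2 := Int.lt_floor_add_one (u / a)
    have h3 := Int.floor_le (v / a)
    have h4 := Int.lt_floor_add_one (v / a)
    have h5 := le_abs_self (⌊u / a⌋ - ⌊v / a⌋ : ℝ)
    have h6 := neg_abs_le (⌊u / a⌋ - ⌊v / a⌋ : ℝ)
    rw [← div_le_iff₀' ha, ← abs_of_pos ha, ← abs_div, abs_of_pos ha, sub_div, Nat.cast_natAbs,
      abs_le]
    push_cast
    constructor <;> linarith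
  have h1 := (k z.re w.re).trans (mul_le_mul_of_nonneg_left (add_le_add_left (Nat.cast_le.2
    (le_max_left _ ((fl a z).2 - (fl a w).2).natAbs)) 1) ha.le)
  have h2 := (k z.im w.im).trans (mul_le_mul_of_nonneg_left (add_le_add_left (Nat.cast_le.2
    (le_max_right ((fl a z).1 - (fl a w).1).natAbs _)) 1) ha.le)
  have := Complex.norm_le_abs_re_add_abs_im (z - w)
  rw [Complex.sub_re, Complex.sub_im] at this
  exact this.trans ((add_le_add h1 h2).trans_eq (two_mul _).symm)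

theorem fl_pt {a : ℝ} (ha : 0 < a) (v : Site) : fl a ⟨a * v.1, a * v.2⟩ = v := by
  simp [fl, ha.ne']

theorem cr_eq {a : ℝ} (ha : 0 < a) (μ : Measure Config) {n : ℕ} (x : Fin n → ℂ) :
    cr a μ x = (rt a)⁻¹ ^ n * ∫ σ, ∏ i, sp (σ (fl a (x i))) ∂μ := by
  simp only [cr, S, prod_mul_distrib, prod_const, card_univ, Fintype.card_fin, integral_const_mul,
    rt_inv ha]

theorem pb_of_lb {μ : ℝ → Measure Config} {C r : ℝ} (hC : 1 ≤ C) (hr : 0 < r) {K D : Set ℂ}
    (hK : ∀ z ∈ K, ∀ w, ‖w - z‖ ≤ r → w ∈ D)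
    (h : ∀ a > 0, LB C (fun F => ∫ σ, F σ ∂μ a) (sites D a)) : PB μ K := by
  refine ⟨C * rt 16, r, by have := rt_pos (s := 16) (by norm_num); positivity, hr, ?_⟩
  filter_upwards [Ioo_mem_nhdsGT (half_pos hr)] with a ⟨ha, har⟩ n x ρ x1 p0 p1 p2
  have r0 := rt_pos ha
  have r8 := rt_pos (s := 16) (by norm_num)
  set m : Fin n → ℕ := fun i => ⌊ρ i / (16 * a)⌋₊ with hm
  have m1 : ∀ i, (m i : ℝ) * (16 * a) ≤ ρ i := fun i =>
    (le_div_iff₀ (by positivity)).1 (Nat.floor_le (by have := p0 i; positivity))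
  have m2 : ∀ i, ρ i ≤ 16 * (a * (m i + 1)) := fun i => by
    have := (div_lt_iff₀ (by positivity)).1 (Nat.lt_floor_add_one (ρ i / (16 * a)))
    linarith
  have ins : ∀ i v, 2 * (a * (zd v (fl a (x i)) + 1)) ≤ r → v ∈ sites D a := fun i v hv =>
    hK _ (x1 i) _ (le_trans (by simpa only [fl_pt ha] using norm_fl ha ⟨a * v.1, a * v.2⟩ (x i)) hv)
  have k := h a ha n (fun i => fl a (x i)) m (univ.filter fun i => 1 ≤ m i)
    (fun i => ins i _ (by simp only [zd, sub_self, Int.natAbs_zero, max_self]; norm_num; linarith))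
    (fun i hi v hv => ins i v (by
      have h1 : (1 : ℝ) ≤ m i := by exact_mod_cast (mem_filter.1 hi).2
      have h2 : (zd v (fl a (x i)) : ℝ) ≤ m i := by exact_mod_cast hv
      nlinarith [m1 i, p1 i])) fun i hi j hj => by
      have h1 : (1 : ℝ) ≤ m i := by exact_mod_cast (mem_filter.1 hi).2
      have h2 := ((m1 i).trans (p2 i j hj.symm)).trans (norm_fl ha _ _)
      have h3 : (2 * m i + 1 : ℝ) < zd (fl a (x i)) (fl a (x j)) := by nlinarith
      exact_mod_cast h3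
  rw [cr_eq ha, abs_mul, abs_of_nonneg (by positivity)]
  refine (mul_le_mul_of_nonneg_left k (by positivity)).trans ?_
  rw [prod_filter, ← Fin.prod_const, ← prod_mul_distrib]
  refine prod_le_prod (fun i _ => ?_) fun i _ => ?_
  · have := rt_pos (s := m i + 1) (by positivity)
    split_ifs <;> positivity
  have r1 := rt_pos (s := m i + 1) (by positivity)
  have r2 := rt_le (p0 i).le (m2 i)
  rw [rt_mul (by norm_num) (by positivity), rt_mul ha.le (by positivity)] at r2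
  have k1 : (rt a)⁻¹ * (C / rt (m i + 1)) ≤ C * rt 16 / rt (ρ i) := by
    rw [le_div_iff₀ (rt_pos (p0 i))]
    refine (mul_le_mul_of_nonneg_left r2 (by positivity)).trans_eq ?_
    field_simp
  split_ifs with hi
  · exact k1
  · refine le_trans (mul_le_mul_of_nonneg_left ?_ (by positivity)) k1
    have : m i = 0 := by omega
    simpa [this, rt] using hC

end Vale.Agent.P144F
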