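import Vale.Agent.P144F.Int
import Mathlib.MeasureTheory.Measure.LevyConvergence
import Mathlib.Analysis.SpecialFunctions.Integrals.Basic

/-!
The method of moments.
-/

namespace Vale.Agent.P144F

open Filter Topology MeasureTheory Vale.Agent.P144 Finset Complex

theorem exp_rem (N : ℕ) (y : ℝ) :
    ‖exp (y * I) - ∑ k ∈ range N, (y * I) ^ k / k.factorial‖ ≤ |y| ^ N / N.factorial := by
  induction N generalizing y with
  | zero => simp
  | succ N ih =>
    have d : ∀ s : ℝ, HasDerivAt (fun s : ℝ => exp (s * I) -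
        ∑ k ∈ range (N + 1), ((s : ℂ) * I) ^ k / k.factorial)
        ((exp (s * I) - ∑ k ∈ range N, ((s : ℂ) * I) ^ k / k.factorial) * I) s := fun s => by
      have h1 : HasDerivAt (fun s : ℝ => (s : ℂ) * I) (1 * I) s :=
        (Complex.ofRealCLM.hasDerivAt).mul_const I
      have h2 := h1.cexp.sub (HasDerivAt.fun_sum (u := range (N + 1)) fun k _ =>
        (h1.fun_pow k).div_const (k.factorial : ℂ))
      refine h2.congr_deriv ?_
      rw [sum_range_succ', sub_mul, sum_mul]
      simp only [Nat.cast_zero, zero_mul, zero_div, add_zero, one_mul, Nat.add_sub_cancel]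
      refine congrArg _ (sum_congr rfl fun k _ => ?_)
      have : (k.factorial : ℂ) ≠ 0 := by exact_mod_cast k.factorial_ne_zero
      have : ((k + 1 : ℕ) : ℂ) ≠ 0 := by exact_mod_cast k.succ_ne_zero
      rw [Nat.factorial_succ, Nat.cast_mul]
      field_simp
    have e := intervalIntegral.integral_eq_sub_of_hasDerivAt (a := 0) (b := y) (fun s _ => d s)
      (Continuous.intervalIntegrable (by fun_prop) _ _)
    simp only [ofReal_zero, zero_mul, exp_zero, sum_range_succ' _ N, pow_succ, mul_zero, zero_div,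
      sum_const_zero, pow_zero, Nat.factorial_zero, Nat.cast_one, div_one, zero_add, sub_self,
      sub_zero] at e
    simp only [sum_range_succ' _ N, pow_succ, pow_zero, Nat.factorial_zero, Nat.cast_one, div_one]
    rw [← e]
    refine intervalIntegral.norm_integral_le_integral_norm_uIoc.trans ((setIntegral_mono
      (g := fun s : ℝ => |s - 0| ^ N / N.factorial) ?_ ?_ fun s => ?_).trans_eq ?_)
    · exact (Continuous.integrableOn_Icc (by fun_prop)).mono_set Set.uIoc_subset_uIcc
    · exact (Continuous.integrableOn_Icc (by fun_prop)).mono_set Set.uIoc_subset_uIcc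
    · simpa using ih s
    · rw [integral_div, integral_pow_abs_sub_uIoc, sub_zero, Nat.factorial_succ, div_div, pow_succ]
      push_cast
      rfl

/-- The growth of the moments. -/
def Gr (m : ℕ → ℝ) : Prop := ∃ c, 0 < c ∧ ∀ k, |m k| ≤ 2 * (c * rt k ^ 2) ^ k

theorem Gr.tendsto {m : ℕ → ℝ} (h : Gr m) :
    Tendsto (fun k => m k / k.factorial) atTop (𝓝 0) := by
  obtain ⟨c, hc, h⟩ := h
  have t1 : Tendsto (fun k : ℕ => rt k) atTop atTop :=
    (tendsto_rpow_atTop (by norm_num)).comp tendsto_natCast_atTop_atTop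
  have t2 := (tendsto_pow_atTop_nhds_zero_of_lt_one (r := (1 / 2 : ℝ)) (by norm_num)
    (by norm_num)).const_mul 2
  rw [mul_zero] at t2
  refine squeeze_zero_norm' ?_ t2
  filter_upwards [t1.eventually_ge_atTop (max 1 (2 * (c * Real.exp 1)))] with k hk
  have t8 := rt_pow (s := k) (by positivity)
  have h1 := Real.pow_div_factorial_le_exp (k : ℝ) (by positivity) k
  have a1 := le_of_max_le_left hk
  have a2 := (le_of_max_le_right hk).trans (le_self_pow₀ a1 (n := 6) (by norm_num))
  rw [norm_div, Real.norm_eq_abs, Real.norm_natCast]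
  refine (div_le_div_of_nonneg_right (h k) (by positivity)).trans ?_
  rw [mul_div_assoc]
  refine mul_le_mul_of_nonneg_left ?_ zero_le_two
  have e : c * rt k ^ 2 = c / rt k ^ 6 * k := by
    generalize rt k = t at t8 a1
    rw [← t8]
    field_simp
  rw [e, mul_pow, mul_div_assoc]
  refine (mul_le_mul_of_nonneg_left h1 (by positivity)).trans ?_
  rw [← Real.exp_one_pow, ← mul_pow]
  refine pow_le_pow_left₀ (by positivity) ?_ _
  rw [div_mul_eq_mul_div, div_le_iff₀ (by positivity)]
  linarith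

/-- The characteristic function in terms of the moments. -/
noncomputable def psi (m : ℕ → ℝ) : ℂ :=
  limUnder atTop fun N => ∑ k ∈ range (2 * N), m k * I ^ k / k.factorial

theorem cf_lim {μ : ℝ → Measure Config} [∀ a, IsProbabilityMeasure (μ a)] {Y : ℝ → Config → ℝ}
    (hY : ∀ a > 0, Bm (Y a)) {m : ℕ → ℝ} (hm : Gr m)
    (h : ∀ k, Tendsto (fun a => ∫ σ, Y a σ ^ k ∂μ a) (𝓝[>] 0) (𝓝 (m k))) :
    Tendsto (fun a => ∫ σ, exp (Y a σ * I) ∂μ a) (𝓝[>] 0) (𝓝 (psi m)) := by
  set P : ℕ → ℂ := fun N => ∑ k ∈ range (2 * N), m k * I ^ k / k.factorial with hP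
  have key : ∀ ε > 0, ∀ᶠ N in atTop, ∀ᶠ a in 𝓝[>] (0 : ℝ),
      dist (∫ σ, exp (Y a σ * I) ∂μ a) (P N) < ε := by
    intro ε hε
    have t1 := hm.tendsto.comp (tendsto_id.const_mul_atTop' (r := 2) two_pos)
    filter_upwards [t1.eventually (gt_mem_nhds (half_pos hε))] with N hN
    have t2 : Tendsto (fun a => ∑ k ∈ range (2 * N),
        ((∫ σ, Y a σ ^ k ∂μ a : ℝ) : ℂ) * I ^ k / k.factorial) (𝓝[>] 0) (𝓝 (P N)) :=
      tendsto_finsetSum _ fun k _ =>
        (((continuous_ofReal.tendsto _).comp (h k)).mul_const _).div_const _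
    filter_upwards [Metric.tendsto_nhds.1 t2 _ (half_pos hε),
      ((h (2 * N)).div_const _).eventually (gt_mem_nhds hN), self_mem_nhdsWithin] with a a1 a2 ha
    refine (dist_triangle _ _ _).trans_lt ((add_lt_add (lt_of_le_of_lt ?_ a2) a1).trans_eq
      (add_halves ε))
    have b := hY a ha
    have i1 : Integrable (fun σ => exp (Y a σ * I)) (μ a) := (integrable_const (1 : ℝ)).mono'
      (by have := b.1; fun_prop) (Eventually.of_forall fun σ => (norm_exp_ofReal_mul_I _).le)
    have i2 : ∀ k, Integrable (fun σ => ((Y a σ ^ k : ℝ) : ℂ) * I ^ k / k.factorial) (μ a) :=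
      fun k => (((b.pow k).int _).ofReal.mul_const _).div_const _
    simp only [← integral_complex_ofReal, ← integral_mul_const, ← integral_div]
    rw [← integral_finsetSum _ fun k _ => i2 k, dist_eq_norm,
      ← integral_sub i1 (integrable_finsetSum _ fun k _ => i2 k)]
    refine norm_integral_le_of_norm_le (((b.pow _).int _).div_const _)
      (Eventually.of_forall fun σ => ?_)
    simpa only [mul_pow, ofReal_pow, (even_two_mul N).pow_abs, id] using exp_rem (2 * N) (Y a σ)
  have hc : CauchySeq P := Metric.cauchySeq_iff'.2 fun ε hε => by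
    obtain ⟨N, hN⟩ := eventually_atTop.1 (key _ (half_pos hε))
    refine ⟨N, fun n hn => ?_⟩
    obtain ⟨a, a1, a2⟩ := ((hN n hn).and (hN N le_rfl)).exists
    exact (dist_triangle_left _ _ _).trans_lt ((add_lt_add a1 a2).trans_eq (add_halves ε))
  refine Metric.tendsto_nhds.2 fun ε hε => ?_
  obtain ⟨N, h1, h2⟩ := ((key _ (half_pos hε)).and
    (Metric.tendsto_nhds.1 hc.tendsto_limUnder _ (half_pos hε))).exists
  exact h1.mono fun a ha => (dist_triangle _ _ _).trans_lt
    ((add_lt_add ha h2).trans_eq (add_halves ε))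

section

variable {E : Type*} [NormedAddCommGroup E] [InnerProductSpace ℝ E] [FiniteDimensional ℝ E]
  [MeasurableSpace E] [BorelSpace E] {P : ℝ → ProbabilityMeasure E}

theorem exists_law {φ : E → ℂ} (hφ : ContinuousAt φ 0)
    (h : ∀ t, Tendsto (fun a => charFun (P a) t) (𝓝[>] 0) (𝓝 (φ t))) :
    ∃ ν : ProbabilityMeasure E, ∀ t, charFun ν t = φ t := by
  obtain ⟨u, hu⟩ := exists_seq_tendsto (𝓝[>] (0 : ℝ))
  have ht : IsTightMeasureSet (𝓧 := E) {P (u n) | n} :=
    isTightMeasureSet_of_tendsto_charFun hφ fun t => (h t).comp hu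
  have hc : IsCompact (closure {P (u n) | n}) :=
    isCompact_closure_of_isTightMeasureSet (by simpa using ht)
  obtain ⟨ν, -, hν : Tendsto _ _ _⟩ := hc.ultrafilter_le_nhds
    ((Ultrafilter.of atTop).map fun n => P (u n))
    (.trans (by simp) (monotone_principal subset_closure))
  refine ⟨ν, fun t => tendsto_nhds_unique ?_ (((h t).comp hu).mono_left (Ultrafilter.of_le _))⟩
  rw [ProbabilityMeasure.tendsto_iff_forall_integral_rclike_tendsto ℂ] at hν
  simpa only [charFun_eq_integral_innerProbChar, Function.comp_def] using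
    hν (BoundedContinuousFunction.innerProbChar t)

theorem tendsto_law {ν : ProbabilityMeasure E}
    (h : ∀ t, Tendsto (fun a => charFun (P a) t) (𝓝[>] 0) (𝓝 (charFun (ν : Measure E) t))) :
    Tendsto P (𝓝[>] 0) (𝓝 ν) :=
  tendsto_iff_seq_tendsto.2 fun _ hu =>
    ProbabilityMeasure.tendsto_of_tendsto_charFun fun t => (h t).comp hu

end

/-- The truncation at level `T`. -/
noncomputable def clp {E : Type*} [TopologicalSpace E] (h : C(E, ℝ)) (T : ℝ) :
    BoundedContinuousFunction E ℝ :=
  BoundedContinuousFunction.mkOfBound ⟨fun v => max (-T) (min (h v) T), by fun_prop⟩ (2 * |T|)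
    fun v w => by
      have := le_abs_self T
      have := neg_abs_le T
      rw [Real.dist_eq, abs_le]
      simp only [ContinuousMap.coe_mk, max_def, min_def]
      split_ifs <;> constructor <;> linarith

theorem clp_le {u T : ℝ} (hT : 0 < T) : |u - max (-T) (min u T)| ≤ u ^ 2 / T := by
  rw [le_div_iff₀ hT, max_def, min_def]
  split_ifs with h1 h2 h2
  · simp [sq_nonneg]
  · rw [abs_of_nonpos (by linarith)]
    nlinarith
  · rw [abs_of_nonneg (by linarith)]
    nlinarith
  · linarith

/-- Weak convergence with bounded second moments gives the convergence of the means. -/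
theorem mom_lim {E : Type*} [TopologicalSpace E] [MeasurableSpace E] [BorelSpace E]
    {P : ℝ → Measure E} {ν : Measure E} [IsProbabilityMeasure ν] [∀ a, IsProbabilityMeasure (P a)]
    (hP : ∀ G : BoundedContinuousFunction E ℝ,
      Tendsto (fun a => ∫ v, G v ∂P a) (𝓝[>] 0) (𝓝 (∫ v, G v ∂ν))) (h : C(E, ℝ)) {M : ℝ}
    (hM : ∀ᶠ a in 𝓝[>] (0 : ℝ), Integrable (fun v => h v ^ 2) (P a) ∧ ∫ v, h v ^ 2 ∂P a ≤ M) :
    Integrable h ν ∧ Tendsto (fun a => ∫ v, h v ∂P a) (𝓝[>] 0) (𝓝 (∫ v, h v ∂ν)) := by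
  have e : ∀ (T : ℝ) v, clp (h ^ 2) T v = max (-T) (min (h v ^ 2) T) := fun _ _ => rfl
  have e0 : ∀ (T : ℕ) v, clp (h ^ 2) T v = min (h v ^ 2) T := fun T v =>
    max_eq_right (le_trans (by simp) (le_min (sq_nonneg _) (Nat.cast_nonneg T)))
  have a1 : ∀ T : ℕ, ∫ v, clp (h ^ 2) T v ∂ν ≤ M := fun T => le_of_tendsto (hP _)
    (hM.mono fun a ha => (integral_mono (BoundedContinuousFunction.integrable _ _) ha.1
      fun v => (e0 T v).trans_le (min_le_left _ _)).trans ha.2)
  have m2 : Measurable fun v => h v ^ 2 := by fun_prop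
  have a2 : ∫⁻ v, ENNReal.ofReal (h v ^ 2) ∂ν ≤ ENNReal.ofReal M := by
    have t := lintegral_tendsto_of_tendsto_of_monotone (μ := ν)
      (f := fun (T : ℕ) v => ENNReal.ofReal (clp (h ^ 2) T v))
      (F := fun v => ENNReal.ofReal (h v ^ 2)) (fun T => by fun_prop)
      (Eventually.of_forall fun v T T' hT => ENNReal.ofReal_le_ofReal (by
        rw [e0, e0]
        exact min_le_min_left _ (by exact_mod_cast hT)))
      (Eventually.of_forall fun v => tendsto_const_nhds.congr' (by
        filter_upwards [tendsto_natCast_atTop_atTop.eventually_ge_atTop (h v ^ 2)] with T hT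
        rw [e0, min_eq_left hT]))
    refine le_of_tendsto' t fun T => ?_
    rw [← ofReal_integral_eq_lintegral_ofReal (BoundedContinuousFunction.integrable _ _)
      (Eventually.of_forall fun v => (le_min (sq_nonneg _) (Nat.cast_nonneg T)).trans_eq
        (e0 T v).symm)]
    exact ENNReal.ofReal_le_ofReal (a1 T)
  have nn : ∀ᵐ v ∂ν, 0 ≤ h v ^ 2 := Eventually.of_forall fun v => sq_nonneg _
  have i2 : Integrable (fun v => h v ^ 2) ν := ⟨m2.aestronglyMeasurable,
    (hasFiniteIntegral_iff_ofReal nn).2 (a2.trans_lt ENNReal.ofReal_lt_top)⟩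
  have M0 : 0 ≤ M := le_trans (integral_nonneg fun v => sq_nonneg (h v)) hM.exists.choose_spec.2
  have a3 : ∫ v, h v ^ 2 ∂ν ≤ M := by
    rw [integral_eq_lintegral_of_nonneg_ae nn m2.aestronglyMeasurable]
    exact ENNReal.toReal_le_of_le_ofReal M0 a2
  have k : ∀ (Q : Measure E) [IsProbabilityMeasure Q], Integrable (fun v => h v ^ 2) Q →
      ∫ v, h v ^ 2 ∂Q ≤ M → Integrable h Q ∧
        ∀ T > 0, |∫ v, h v ∂Q - ∫ v, clp h T v ∂Q| ≤ M / T := by
    intro Q _ q1 q2
    have q3 : Integrable h Q := ((integrable_const 1).add q1).mono'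
      h.continuous.measurable.aestronglyMeasurable (Eventually.of_forall fun v => by
        rw [Real.norm_eq_abs, Pi.add_apply, ← sq_abs]
        nlinarith [abs_nonneg (h v)])
    refine ⟨q3, fun T hT => ?_⟩
    rw [← integral_sub q3 (BoundedContinuousFunction.integrable _ _), ← Real.norm_eq_abs]
    refine (norm_integral_le_of_norm_le (q1.div_const T)
      (Eventually.of_forall fun v => clp_le hT)).trans ?_
    rw [integral_div]
    exact div_le_div_of_nonneg_right q2 hT.le
  refine ⟨(k ν i2 a3).1, Metric.tendsto_nhds.2 fun ε hε => ?_⟩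
  have hT : 0 < 3 * (M + 1) / ε := by positivity
  have a4 : M / (3 * (M + 1) / ε) ≤ ε / 3 := by
    rw [div_div_eq_mul_div, div_le_div_iff₀ (by positivity) (by positivity)]
    nlinarith
  filter_upwards [hM, Metric.tendsto_nhds.1 (hP (clp h (3 * (M + 1) / ε))) (ε / 3) (by positivity)]
    with a ha a5
  have a6 := abs_le.1 (((k _ ha.1 ha.2).2 _ hT).trans a4)
  have a7 := abs_le.1 (((k ν i2 a3).2 _ hT).trans a4)
  rw [Real.dist_eq, abs_lt] at a5 ⊢
  constructor <;> linarith [a5.1, a5.2, a6.1, a6.2, a7.1, a7.2]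

end Vale.Agent.P144F
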