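import Vale.Agent.P144.Defs
import Mathlib.MeasureTheory.Measure.Lebesgue.Complex
import Mathlib.MeasureTheory.Constructions.Pi
import Mathlib.Topology.ContinuousMap.Bounded.Basic

/-!
The smeared spin field, its moments and its law; reflection positivity.
-/

namespace Vale.Agent.P144F

open Filter Topology MeasureTheory Vale.Agent.P144

/-- Test functions: measurable, bounded and zero outside a compact subset of `D`. -/
def Test (D : Set ℂ) (f : ℂ → ℝ) : Prop :=
  Measurable f ∧ (∃ B, ∀ z, |f z| ≤ B) ∧ ∃ K ⊆ D, IsCompact K ∧ ∀ z ∉ K, f z = 0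

/-- The rescaled spin field smeared with `f`. -/
noncomputable def field (a : ℝ) (f : ℂ → ℝ) (σ : Config) : ℝ :=
  ∫ z, f z * (a ^ (-(1 / 8) : ℝ) * sp (σ (fl a z)))

/-- The points of a correlation of spins only. -/
def spins {n : ℕ} (x : Fin n → ℂ) : Pts := ⟨n, 0, x, ![], ![]⟩

/-- The correlation function `C` smeared with the functions `f i`. -/
noncomputable def smear (C : Pts → ℝ) {n : ℕ} (f : Fin n → ℂ → ℝ) (x : Fin n → ℂ) : ℝ :=
  (∏ i, f i (x i)) * C (spins x)

/-- The family `ν` of laws of the limit field: probability measures whose mixed moments are the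
smeared correlation functions, which are integrable. -/
def IsLaw (D : Set ℂ) (C : Pts → ℝ) (ν : ∀ r : ℕ, (Fin r → ℂ → ℝ) → Measure (Fin r → ℝ)) : Prop :=
  ∀ r f, (∀ i, Test D (f i)) → IsProbabilityMeasure (ν r f) ∧ ∀ (n : ℕ) (k : Fin n → Fin r),
    Integrable (smear C fun i => f (k i)) ∧ Integrable (fun v => ∏ i, v (k i)) (ν r f) ∧
      ∫ v, ∏ i, v (k i) ∂ν r f = ∫ x, smear C (fun i => f (k i)) x

/-- The smeared spin field converges to `Z` times the field with the laws `ν`: all mixed moments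
converge, and the finite-dimensional laws converge weakly. -/
def FieldLim (D : Set ℂ) (E : Fam) (Z : ℝ)
    (ν : ∀ r : ℕ, (Fin r → ℂ → ℝ) → Measure (Fin r → ℝ)) : Prop :=
  ∀ r f, (∀ i, Test D (f i)) →
    Tendsto (fun a => E a fun σ => ∏ i, field a (f i) σ) (𝓝[>] 0)
      (𝓝 (Z ^ r * ∫ v, ∏ i, v i ∂ν r f)) ∧
    ∀ G : BoundedContinuousFunction (Fin r → ℝ) ℝ,
      Tendsto (fun a => E a fun σ => G fun i => field a (f i) σ) (𝓝[>] 0)
        (𝓝 (∫ v, G (Z • v) ∂ν r f))

/-- The points of `p` reflected in the real axis, together with the points of `q`. -/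
def refl (p q : Pts) : Pts :=
  ⟨p.n + q.n, p.m + q.m, Fin.append (fun i => starRingEnd ℂ (p.x i)) q.x,
    Fin.append (fun k => starRingEnd ℂ (p.y k)) q.y, Fin.append p.j q.j⟩

/-- Reflection positivity of the correlation functions. -/
def RP (C : Pts → ℝ) : Prop :=
  ∀ (N : ℕ) (p : Fin N → Pts) (c : Fin N → ℝ),
    (∀ k, (p k).n + (p k).m = 0 ∨ Good {z | 0 < z.im} (p k)) →
      0 ≤ ∑ k, ∑ l, c k * c l * C (refl (p k) (p l))

end Vale.Agent.P144F
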