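import Vale.Agent.P144F.Mb

/-!
The contribution of close points to the moments of the field is small.
-/

namespace Vale.Agent.P144F

open Filter Topology MeasureTheory Vale.Agent.P144 Finset

/-- The cells that meet the disc of radius `R`. -/
noncomputable def bx (M : ℕ) : Finset Site := Icc (-M : ℤ) M ×ˢ Icc (-M : ℤ) M

theorem card_bx (M : ℕ) : (bx M).card = (2 * M + 1) ^ 2 := by
  simp only [bx, card_product, Int.card_Icc, sq]
  congr 1 <;> omega

theorem mem_bx {s R : ℝ} (hs : 0 < s) {z : ℂ} (hz : ‖z‖ ≤ R) {M : ℕ} (hM : R / s ≤ M) :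
    fl s z ∈ bx M := by
  have k : ∀ u : ℝ, |u| ≤ R → ⌊u / s⌋ ∈ Icc (-M : ℤ) M := fun u hu => by
    have h1 := div_le_div_of_nonneg_right (abs_le.1 hu).1 hs.le
    have h2 := div_le_div_of_nonneg_right (abs_le.1 hu).2 hs.le
    rw [neg_div] at h1
    rw [mem_Icc, Int.le_floor, Int.floor_le_iff]
    push_cast
    constructor <;> linarith
  exact mem_product.2 ⟨k _ ((Complex.abs_re_le_norm z).trans hz),
    k _ ((Complex.abs_im_le_norm z).trans hz)⟩

/-- The corridors between the cells of mesh `δ`. -/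
def cor (m : ℕ) (c : Site) : Prop := (m : ℤ) ∣ c.1 ∨ (m : ℤ) ∣ c.2

instance (m : ℕ) : DecidablePred (cor m) := fun _ => instDecidableOr

theorem card_cor {m : ℕ} (hm : 0 < m) (M : ℕ) :
    ((bx (m * M)).filter (cor m)).card ≤ 2 * m * (2 * M + 1) ^ 2 := by
  set P := Icc (-M : ℤ) M ×ˢ Icc (-(m * M : ℕ) : ℤ) (m * M : ℕ) with hP
  have cP : P.card ≤ m * (2 * M + 1) ^ 2 := by
    have e1 : (Icc (-M : ℤ) M).card = 2 * M + 1 := by rw [Int.card_Icc]; omega
    have e2 : (Icc (-(m * M : ℕ) : ℤ) (m * M : ℕ)).card = 2 * (m * M) + 1 := by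
      rw [Int.card_Icc]; omega
    rw [hP, card_product, e1, e2]
    nlinarith
  have k : ∀ t : ℤ, m * t ∈ Icc (-(m * M : ℕ) : ℤ) (m * M : ℕ) → t ∈ Icc (-M : ℤ) M := by
    intro t ht
    have hm' : (0 : ℤ) < m := by exact_mod_cast hm
    rw [mem_Icc] at ht ⊢
    push_cast at ht
    constructor <;> nlinarith [ht.1, ht.2]
  refine (card_le_card (t := P.image (fun p => (((m : ℤ) * p.1, p.2) : Site)) ∪
    P.image fun p => ((p.2, (m : ℤ) * p.1) : Site)) fun c hc => ?_).trans ((card_union_le _ _).trans ?_)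
  · obtain ⟨h1, ⟨t, ht⟩ | ⟨t, ht⟩⟩ := mem_filter.1 hc
    · exact mem_union_left _ (mem_image.2 ⟨(t, c.2), mem_product.2
        ⟨k t (ht ▸ (mem_product.1 h1).1), (mem_product.1 h1).2⟩, Prod.ext ht.symm rfl⟩)
    · exact mem_union_right _ (mem_image.2 ⟨(t, c.1), mem_product.2
        ⟨k t (ht ▸ (mem_product.1 h1).2), (mem_product.1 h1).1⟩, Prod.ext rfl ht.symm⟩)
  · have h1 := card_image_le (s := P) (f := fun p => ((m * p.1, p.2) : Site))
    have h2 := card_image_le (s := P) (f := fun p => ((p.2, m * p.1) : Site))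
    nlinarith

/-- The part of `f` outside the corridors. -/
noncomputable def core (δ : ℝ) (m : ℕ) (f : ℂ → ℝ) (z : ℂ) : ℝ :=
  if cor m (fl (δ / m) z) then 0 else f z

variable {K : Set ℂ} {f : ℂ → ℝ}

theorem core_ne {δ : ℝ} {m : ℕ} {z : ℂ} (h : core δ m f z ≠ 0) :
    ¬ cor m (fl (δ / m) z) ∧ f z ≠ 0 := by
  unfold core at h
  split_ifs at h with h'
  exacts [absurd rfl h, ⟨h', h⟩]

theorem Tb.core (h : Tb K f) (δ : ℝ) (m : ℕ) :
    Tb K (core δ m f) ∧ Tb K fun z => f z - P144F.core δ m f z := by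
  have m1 : Measurable (P144F.core δ m f) := measurable_const.ite
    (meas_fl _ (MeasurableSet.of_discrete (s := {c | cor m c}))) h.1
  refine ⟨⟨m1, fun z => ?_, fun z hz => h.2.2 z (core_ne hz).2⟩, h.1.sub m1, fun z => ?_,
    fun z hz => h.2.2 z fun e => hz ?_⟩
  all_goals simp only [P144F.core]; split_ifs <;> simp [h.2.1, *]

theorem core_far {δ : ℝ} (hδ : 0 < δ) {m : ℕ} (hm : 0 < m) {z w : ℂ} (h : fl δ z ≠ fl δ w)
    (hz : ¬ cor m (fl (δ / m) z)) (hw : ¬ cor m (fl (δ / m) w)) : δ / m ≤ ‖z - w‖ := by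
  have hs : 0 < δ / m := by positivity
  have k0 : ∀ u v : ℝ, ⌊u / δ⌋ < ⌊v / δ⌋ → ¬ (m : ℤ) ∣ ⌊v / (δ / m)⌋ → δ / m ≤ v - u := by
    intro u v h h'
    have h1 := (mem_Ico.1 (floor_sub u δ hm)).2
    have h2 := (mem_Ico.1 (floor_sub v δ hm)).1
    have h3 : (m : ℤ) * ⌊v / δ⌋ ≠ ⌊v / (δ / m)⌋ := fun e => h' ⟨_, e.symm⟩
    have h4 : (m : ℤ) * (⌊u / δ⌋ + 1) ≤ m * ⌊v / δ⌋ := mul_le_mul_of_nonneg_left h (by positivity)
    simpa using floor_far (k := 1) (u := u) (v := v) hs (by rw [mul_add] at h4; omega)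
  have k : ∀ u v : ℝ, ⌊u / δ⌋ ≠ ⌊v / δ⌋ → ¬ (m : ℤ) ∣ ⌊u / (δ / m)⌋ → ¬ (m : ℤ) ∣ ⌊v / (δ / m)⌋ →
      δ / m ≤ |u - v| := by
    intro u v h h1 h2
    rcases h.lt_or_gt with h | h
    · rw [abs_sub_comm]
      exact (k0 u v h h2).trans (le_abs_self _)
    · exact (k0 v u h h1).trans (le_abs_self _)
  rw [cor, not_or] at hz hw
  by_cases e : (fl δ z).1 = (fl δ w).1
  · exact (k z.im w.im (fun e' => h (Prod.ext e e')) hz.2 hw.2).trans
      (Complex.abs_im_le_norm (z - w))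
  · exact (k z.re w.re e hz.1 hw.1).trans (Complex.abs_re_le_norm (z - w))

theorem add3_pow {u v w : ℝ} (hu : 0 ≤ u) (hv : 0 ≤ v) (hw : 0 ≤ w) (n : ℕ) :
    (u + v + w) ^ n ≤ 1 + 3 ^ (2 * n) * (u ^ (2 * n) + v ^ (2 * n) + w ^ (2 * n)) := by
  have h1 : (u + v + w) ^ n ≤ 1 + (u + v + w) ^ (2 * n) := by
    rw [mul_comm, pow_mul]
    nlinarith [sq_nonneg ((u + v + w) ^ n - 1)]
  refine h1.trans (add_le_add_right ?_ _)
  have p1 := pow_nonneg hu (2 * n)
  have p2 := pow_nonneg hv (2 * n)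
  have p3 := pow_nonneg hw (2 * n)
  have k : ∀ t, u + v + w ≤ 3 * t → t ^ (2 * n) ≤ u ^ (2 * n) + v ^ (2 * n) + w ^ (2 * n) →
      (u + v + w) ^ (2 * n) ≤ 3 ^ (2 * n) * (u ^ (2 * n) + v ^ (2 * n) + w ^ (2 * n)) :=
    fun t h h' => (pow_le_pow_left₀ (by positivity) h _).trans
      ((mul_pow _ _ _).trans_le (mul_le_mul_of_nonneg_left h' (by positivity)))
  rcases le_total u v with a | a <;> rcases le_total v w with b | b <;>
    rcases le_total u w with c | c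
  all_goals first
    | exact k u (by linarith) (by linarith)
    | exact k v (by linarith) (by linarith)
    | exact k w (by linarith) (by linarith)

theorem pt_le {κ : Type*} [Fintype κ] [DecidableEq κ] {n : ℕ} (u : Fin n → ℝ) (x : Fin n → κ → ℝ)
    {θ : ℝ} (hθ : 0 < θ) (hθ1 : θ ≤ 1) : |∏ i, u i - Dj x| ≤ (n + n.factorial) * θ *
      (1 + 3 ^ (2 * n) * ((∑ i, |u i|) ^ (2 * n) + θ⁻¹ ^ (2 * n) * (∑ i, |u i - ∑ c, x i c|) ^ (2 * n)
        + θ⁻¹ ^ (2 * n) * (∑ p : Fin n × κ, x p.1 p.2 ^ 2) ^ n)) := by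
  set U := ∑ i, |u i| with hU
  set H := ∑ i, |u i - ∑ c, x i c| with hH
  set W := ∑ p : Fin n × κ, x p.1 p.2 ^ 2 with hW
  have U0 : 0 ≤ U := sum_nonneg fun _ _ => abs_nonneg _
  have H0 : 0 ≤ H := sum_nonneg fun _ _ => abs_nonneg _
  have W0 : 0 ≤ W := sum_nonneg fun _ _ => sq_nonneg _
  have hi : 1 ≤ θ⁻¹ := one_le_inv₀ hθ |>.2 hθ1
  have p1 : H ≤ θ⁻¹ * H := le_mul_of_one_le_left H0 hi
  have p2 : 0 ≤ θ⁻¹ * √W := by positivity
  set m := U + θ⁻¹ * H + θ⁻¹ * √W with hm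
  have e : θ * m = θ * U + H + √W := by rw [hm]; field_simp
  have p3 : 0 ≤ θ * U := by positivity
  have p4 := Real.sqrt_nonneg W
  have a1 : ∀ i, |u i| ≤ U := fun i =>
    single_le_sum (f := fun i => |u i|) (fun _ _ => abs_nonneg _) (mem_univ i)
  have a2 : ∀ i, |u i - ∑ c, x i c| ≤ H := fun i =>
    single_le_sum (f := fun i => |u i - ∑ c, x i c|) (fun _ _ => abs_nonneg _) (mem_univ i)
  have a3 : ∀ i, |∑ c, x i c| ≤ m := fun i => by
    have := abs_sub (u i) (u i - ∑ c, x i c)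
    rw [sub_sub_cancel] at this
    linarith [a1 i, a2 i]
  have k1 := prod_sub univ (m := m) hθ.le (fun i => by linarith [a1 i]) a3 fun i => by linarith [a2 i]
  have k2 := Dj_sub hθ.le hθ1 (by linarith : 0 ≤ m) x a3 fun i => by
    refine le_trans ?_ (pow_le_pow_left₀ p4 (by linarith : √W ≤ θ * m) 2)
    rw [Real.sq_sqrt W0, hW, Fintype.sum_prod_type]
    exact single_le_sum (f := fun i => ∑ c, x i c ^ 2)
      (fun _ _ => sum_nonneg fun _ _ => sq_nonneg _) (mem_univ i)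
  rw [card_univ, Fintype.card_fin] at k1
  have k3 := add3_pow U0 (H0.trans p1) p2 n
  rw [← hm, mul_pow, mul_pow, pow_mul √W, Real.sq_sqrt W0] at k3
  refine le_trans ?_ (mul_le_mul_of_nonneg_left k3 (by positivity))
  linarith [abs_sub_le (∏ i, u i) (∏ i, ∑ c, x i c) (Dj x)]

theorem tendsto_rt : Tendsto rt (𝓝[>] 0) (𝓝 0) := by
  have := (Real.continuous_rpow_const (q := 1 / 8) (by norm_num)).tendsto 0
  rw [Real.zero_rpow (by norm_num)] at this
  exact this.mono_left nhdsWithin_le_nhds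

theorem approx {μ : ℝ → Measure Config} [∀ a, IsProbabilityMeasure (μ a)] (h : MB μ K) {R : ℝ}
    (hR : ∀ z ∈ K, ‖z‖ ≤ R) (n : ℕ) {ε : ℝ} (hε : 0 < ε) :
    ∀ᶠ δ in 𝓝[>] (0 : ℝ), ∀ᶠ m : ℕ in atTop, ∀ᶠ a in 𝓝[>] (0 : ℝ), ∀ f : Fin n → ℂ → ℝ,
      (∀ i, Tb K (f i)) → |∫ σ, ∏ i, field a (f i) σ ∂μ a - ∫ σ, Dj (fun i (c : bx ⌈R / δ⌉₊) =>
        field a (pc δ (core δ m (f i)) c) σ) ∂μ a| ≤ ε := by
  rcases eq_or_ne n 0 with rfl | hn
  · simp [Dj_zero, hε.le]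
  obtain ⟨B, r, hB, hr, h⟩ := h n hn
  set Y := (n : ℝ) ^ (2 * n) * ((bx ⌈R / r⌉₊).card ^ (2 * n) * (B * (rt r ^ 15) ^ (2 * n))) with hY
  have r0 := rt_pos hr
  have Y0 : 0 ≤ Y := by positivity
  set c := ((n : ℝ) + n.factorial) * (1 + 3 ^ (2 * n) * (Y + 1 + 1)) with hc
  have c0 : 0 ≤ c := by positivity
  set θ := min 1 (ε / (c + 1)) with hθ
  have θ0 : 0 < θ := by positivity
  have θ1 : c * θ ≤ ε := by
    have := (le_div_iff₀ (by positivity)).1 (min_le_right 1 (ε / (c + 1)))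
    nlinarith
  have t1 : Tendsto (fun δ => θ⁻¹ ^ (2 * n) * ((n * (2 * |R| + 3) ^ 2 * rt δ ^ 14) ^ n * B))
      (𝓝[>] 0) (𝓝 0) := by
    have := ((((tendsto_rt.pow 14).const_mul (n * (2 * |R| + 3) ^ 2)).pow n).mul_const B).const_mul
      (θ⁻¹ ^ (2 * n))
    simpa [hn] using this
  filter_upwards [t1.eventually (ge_mem_nhds one_pos), Ioo_mem_nhdsGT (lt_min hr one_pos)]
    with δ d1 d2
  obtain ⟨δ0, d2⟩ := d2
  have r1 := rt_pos δ0
  set M := ⌈R / δ⌉₊ with hM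
  have t2 : Tendsto (fun m : ℕ => θ⁻¹ ^ (2 * n) * (n ^ (2 * n) *
      ((2 * (2 * M + 1) ^ 2 * rt δ ^ 15 * (rt m)⁻¹ ^ 7) ^ (2 * n) * B))) atTop (𝓝 0) := by
    have t3 : Tendsto (fun m : ℕ => (rt m)⁻¹) atTop (𝓝 0) :=
      ((tendsto_rpow_atTop (by norm_num)).comp tendsto_natCast_atTop_atTop).inv_tendsto_atTop
    have := (((((t3.pow 7).const_mul (2 * (2 * M + 1) ^ 2 * rt δ ^ 15)).pow (2 * n)).mul_const
      B).const_mul ((n : ℝ) ^ (2 * n))).const_mul (θ⁻¹ ^ (2 * n))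
    simpa [hn] using this
  filter_upwards [t2.eventually (ge_mem_nhds one_pos), eventually_ge_atTop 1] with m m1 m2
  have m3 : (1 : ℝ) ≤ m := by exact_mod_cast m2
  have r2 : 0 < rt m := rt_pos (by linarith)
  filter_upwards [h, self_mem_nhdsWithin] with a h ha f hf
  replace ha : 0 < a := ha
  have hs : 0 < δ / m := by positivity
  have tg := fun i => ((hf i).core δ m).1
  have th := fun i => ((hf i).core δ m).2
  have cv : ∀ {g : ℂ → ℝ} {s : ℝ}, Tb K g → 0 < s → ∀ z, g z ≠ 0 → fl s z ∈ bx ⌈R / s⌉₊ :=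
    fun hg hs z hz => mem_bx hs (hR z (hg.2.2 z hz)) (Nat.le_ceil _)
  have mi : ∀ {g : ℂ → ℝ}, Tb K g → Mi g := fun hg => hg.mi hr (cv hg hr)
  have mom : ∀ {g : ℂ → ℝ} {s : ℝ} {I : Finset Site}, Tb K g → 0 < s → s ≤ r →
      (∀ z, g z ≠ 0 → fl s z ∈ I) → ∫ σ, field a g σ ^ (2 * n) ∂μ a ≤
        I.card ^ (2 * n) * (B * (rt s ^ 15) ^ (2 * n)) := fun hg hs hsr hI => by
    simp only [hg.field hs ha hI]
    exact int_sum _ (fun c => (hg.mi_pc hs c).1.bm ha) _ hn fun c _ => h _ hs hsr _ c hg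
  have b0 := fun i => (mi (hf i)).bm ha
  have b1 := fun i => (mi (th i)).bm ha
  have b2 := fun (p : Fin n × bx M) => ((tg p.1).mi_pc δ0 p.2).1.bm ha
  have bD := bm_Dj (y := fun i (c : bx M) => field a (pc δ (core δ m (f i)) c)) fun i c => b2 (i, c)
  have i0 := (Bm.sum univ fun i _ => (b0 i).abs).pow (2 * n)
  have i1 := (Bm.const (θ⁻¹ ^ (2 * n))).mul ((Bm.sum univ fun i _ => (b1 i).abs).pow (2 * n))
  have i2 := (Bm.const (θ⁻¹ ^ (2 * n))).mul ((Bm.sum univ fun p _ => (b2 p).pow 2).pow n)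
  have e0 := int_abs univ b0 (μ a) hn fun i _ => mom (hf i) hr le_rfl (cv (hf i) hr)
  have e1 := int_abs univ b1 (μ a) hn fun i _ => mom (I := (bx (m * M)).filter (cor m)) (th i) hs
    ((div_le_self δ0.le m3).trans (d2.le.trans (min_le_left _ _))) fun z hz => mem_filter.2
      ⟨mem_bx hs (hR z ((th i).2.2 z hz)) (by
        rw [div_div_eq_mul_div, mul_div_right_comm, mul_comm, Nat.cast_mul]
        exact mul_le_mul_of_nonneg_left (Nat.le_ceil _) (by positivity)),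
      by_contra fun e => hz (by rw [core, if_neg e, sub_self])⟩
  have e2 := int_sq univ b2 (μ a) hn fun p _ =>
    h δ δ0 (d2.le.trans (min_le_left _ _)) _ p.2 (tg p.1)
  rw [card_univ, Fintype.card_fin] at e0 e1
  rw [card_univ, Fintype.card_prod, Fintype.card_fin, Fintype.card_coe, card_bx] at e2
  have k1 : (((bx (m * M)).filter (cor m)).card : ℝ) ^ (2 * n) * (B * (rt (δ / m) ^ 15) ^ (2 * n))
      ≤ (2 * (2 * M + 1) ^ 2 * rt δ ^ 15 * (rt m)⁻¹ ^ 7) ^ (2 * n) * B := by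
    rw [mul_left_comm, ← mul_pow, mul_comm]
    have r3 := rt_pos hs
    refine mul_le_mul_of_nonneg_right (pow_le_pow_left₀ (by positivity) ?_ _) hB.le
    have k2 : (((bx (m * M)).filter (cor m)).card : ℝ) ≤ 2 * m * (2 * M + 1) ^ 2 := by
      exact_mod_cast card_cor m2 M
    refine (mul_le_mul_of_nonneg_right k2 (by positivity)).trans_eq ?_
    have : (m : ℝ) = rt m ^ 8 := (rt_pow (by positivity)).symm
    rw [rt_div δ0.le (by positivity)]
    generalize rt m = t at this r2 ⊢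
    rw [this]
    field_simp
  have k2 : ((n * (2 * M + 1) ^ 2 : ℕ) : ℝ) ^ n * (B * (rt δ ^ 15) ^ (2 * n)) ≤
      (n * (2 * |R| + 3) ^ 2 * rt δ ^ 14) ^ n * B := by
    rw [mul_left_comm, pow_mul, ← mul_pow, mul_comm]
    refine mul_le_mul_of_nonneg_right (pow_le_pow_left₀ (by positivity) ?_ _) hB.le
    have k3 : (2 * M + 1 : ℝ) * δ ≤ 2 * |R| + 3 := by
      have k4 : (M : ℝ) ≤ |R| / δ + 1 := (Nat.cast_le.2 (Nat.ceil_le_ceil
        (div_le_div_of_nonneg_right (le_abs_self R) δ0.le))).trans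
          (Nat.ceil_lt_add_one (by positivity)).le
      have k5 := mul_le_mul_of_nonneg_right k4 δ0.le
      rw [add_mul, div_mul_cancel₀ _ δ0.ne'] at k5
      linarith [d2.le.trans (min_le_right _ _)]
    have k6 := pow_le_pow_left₀ (by positivity) k3 2
    push_cast
    calc (n : ℝ) * (2 * M + 1) ^ 2 * (rt δ ^ 15) ^ 2
        = n * ((2 * M + 1) * rt δ ^ 8) ^ 2 * rt δ ^ 14 := by ring
      _ ≤ _ := by rw [rt_pow δ0.le]; gcongr
  have e3 := (mul_le_mul_of_nonneg_left (e1.trans (mul_le_mul_of_nonneg_left k1 (by positivity)))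
    (by positivity)).trans m1
  have e4 := (mul_le_mul_of_nonneg_left (e2.trans k2) (by positivity)).trans d1
  rw [← integral_const_mul] at e3 e4
  rw [← integral_sub ((Bm.prod _ fun i _ => b0 i).int _) (bD.int _)]
  have i3 := (Bm.const 1).add ((Bm.const (3 ^ (2 * n))).mul ((i0.add i1).add i2))
  refine abs_integral_le_integral_abs.trans ((integral_mono
    (((Bm.prod _ fun i _ => b0 i).sub bD).abs.int _)
    (((Bm.const ((n + n.factorial) * θ)).mul i3).int _) fun σ => ?_).trans ?_)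
  · refine (pt_le _ _ θ0 (min_le_left _ _)).trans_eq ?_
    have e : ∀ i, field a (f i) σ - ∑ c : bx M, field a (pc δ (core δ m (f i)) c) σ =
        field a (fun z => f i z - core δ m (f i) z) σ := fun i => by
      rw [field_sub (mi (hf i)) (mi (tg i)) ha, (tg i).field δ0 ha (cv (tg i) δ0),
        sum_coe_sort (bx M) fun c => field a (pc δ (core δ m (f i)) c) σ]
    simp only [e]
  · rw [integral_const_mul, integral_add (integrable_const _)
      (((Bm.const _).mul ((i0.add i1).add i2)).int _), integral_const_mul,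
      integral_add ((i0.add i1).int _) (i2.int _), integral_add (i0.int _) (i1.int _),
      integral_const, probReal_univ, one_smul]
    refine le_trans ?_ θ1
    rw [hc, mul_right_comm]
    gcongr

/-- The correlations at separated points of `K` are asymptotically proportional. -/
def UD (μ μ₀ : ℝ → Measure Config) (Z : ℝ) (K : Set ℂ) : Prop :=
  ∀ n : ℕ, ∀ ρ > 0, ∀ η > 0, ∀ᶠ a in 𝓝[>] (0 : ℝ), ∀ x : Fin n → ℂ, (∀ i, x i ∈ K) →
    (∀ i j, i ≠ j → ρ ≤ ‖x i - x j‖) → |cr a (μ a) x - Z ^ n * cr a (μ₀ a) x| ≤ η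

theorem diff {μ μ₀ : ℝ → Measure Config} [∀ a, IsProbabilityMeasure (μ a)]
    [∀ a, IsProbabilityMeasure (μ₀ a)] (h : MB μ K) (h₀ : MB μ₀ K) {Z : ℝ} (hD : UD μ μ₀ Z K)
    {R : ℝ} (hR : ∀ z ∈ K, ‖z‖ ≤ R) {n : ℕ} {f : Fin n → ℂ → ℝ} (hf : ∀ i, Tb K (f i)) :
    Tendsto (fun a => ∫ σ, ∏ i, field a (f i) σ ∂μ a - Z ^ n * ∫ σ, ∏ i, field a (f i) σ ∂μ₀ a)
      (𝓝[>] 0) (𝓝 0) := by
  rw [Metric.tendsto_nhds]
  intro ε hε
  set e := ε / (3 + |Z ^ n|) with he
  have e0 : 0 < e := by positivity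
  obtain ⟨δ, ⟨d1, d2⟩, δ0⟩ := (((approx h hR n e0).and (approx h₀ hR n e0)).and
    self_mem_nhdsWithin).exists
  replace δ0 : 0 < δ := δ0
  obtain ⟨m, ⟨m1, m2⟩, m0⟩ := ((d1.and d2).and (eventually_gt_atTop 0)).exists
  set I := bx ⌈R / δ⌉₊ with hI
  set η := e / (Fintype.card I ^ n * (δ ^ 2) ^ n + 1) with hη
  have η0 : 0 < η := by positivity
  filter_upwards [m1, m2, hD n (δ / m) (by positivity) η η0, self_mem_nhdsWithin]
    with a a1 a2 a3 ha
  replace ha : 0 < a := ha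
  have tg := fun i => ((hf i).core δ m).1
  have mi := fun i (c : I) => ((tg i).mi_pc δ0 c).1
  replace a1 := a1 f hf
  replace a2 := mul_le_mul_of_nonneg_left (a2 f hf) (abs_nonneg (Z ^ n))
  rw [int_Dj fun i c => (mi i c).bm ha] at a1 a2
  have a4 := abs_sum_inj (κ := I) (n := n) (X := η * (δ ^ 2) ^ n) (u := fun b =>
      ∫ σ, ∏ i, field a (pc δ (core δ m (f i)) (b i)) σ ∂μ a -
        Z ^ n * ∫ σ, ∏ i, field a (pc δ (core δ m (f i)) (b i)) σ ∂μ₀ a) (by positivity)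
    fun b hb => by
      rw [prod_field _ ha fun i => mi i (b i), prod_field _ ha fun i => mi i (b i),
        ← integral_const_mul, ← integral_sub (int_cr _ ha fun i => mi i (b i))
          ((int_cr _ ha fun i => mi i (b i)).const_mul _)]
      simp only [mul_left_comm (Z ^ n), ← mul_sub]
      refine (abs_int_le (fun i => mi i (b i)) fun x hx => a3 x
        (fun i => ((tg i).pc _ _).2.2 _ (hx i)) fun i j hij => core_far δ0 m0
          (fun h => hij (hb (Subtype.ext ?_))) (core_ne (pc_ne (hx i)).2).1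
          (core_ne (pc_ne (hx j)).2).1).trans (mul_le_mul_of_nonneg_left ?_ η0.le)
      · rw [← (pc_ne (hx i)).1, ← (pc_ne (hx j)).1, h]
      · refine (prod_le_prod (fun i _ => integral_nonneg fun _ => abs_nonneg _)
          fun i _ => ((tg i).mi_pc δ0 (b i)).2).trans_eq ?_
        rw [prod_const, card_univ, Fintype.card_fin]
  have a5 : (Fintype.card I : ℝ) ^ n * (η * (δ ^ 2) ^ n) ≤ e := by
    have : η * (Fintype.card I ^ n * (δ ^ 2) ^ n + 1) = e := div_mul_cancel₀ _ (by positivity)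
    nlinarith
  have a6 : ∀ u v : (Fin n → I) → ℝ, (∑ b, if Function.Injective b then u b - Z ^ n * v b else 0) =
      (∑ b, if Function.Injective b then u b else 0) -
        Z ^ n * ∑ b, if Function.Injective b then v b else 0 := fun u v => by
    rw [mul_sum, ← sum_sub_distrib]
    refine sum_congr rfl fun b _ => ?_
    split_ifs <;> simp
  rw [a6] at a4
  rw [← abs_mul, mul_sub] at a2
  have a7 : e * (3 + |Z ^ n|) = ε := div_mul_cancel₀ _ (by positivity)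
  rw [Real.dist_eq, sub_zero, abs_lt]
  rw [abs_le] at a1 a2 a4
  constructor <;> linarith [a1.1, a1.2, a2.1, a2.2, a4.1, a4.2]

end Vale.Agent.P144F
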