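import Vale.Agent.P144.MathlibUsed
import Mathlib.Algebra.Order.Chebyshev

/-!
Products of sums compared with the sums over distinct indices.
-/

namespace Vale.Agent.P144F

open Finset

variable {κ : Type*} [Fintype κ] [DecidableEq κ]

/-- The sum over distinct indices. -/
noncomputable def Dj {n : ℕ} (x : Fin n → κ → ℝ) : ℝ :=
  ∑ b : Fin n → κ, if Function.Injective b then ∏ i, x i (b i) else 0

theorem Dj_zero (x : Fin 0 → κ → ℝ) : Dj x = 1 := by
  simp [Dj, Function.injective_of_subsingleton]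

theorem Dj_succ {n : ℕ} (x : Fin (n + 1) → κ → ℝ) :
    Dj x = (∑ c, x 0 c) * Dj (fun i => x i.succ) -
      ∑ i : Fin n, Dj (Function.update (fun i : Fin n => x i.succ) i fun c => x 0 c * x i.succ c) := by
  unfold Dj
  rw [← (Fin.consEquiv fun _ => κ).sum_comp, Fintype.sum_prod_type, sum_comm, mul_sum,
    sum_comm (s := (univ : Finset (Fin n))), ← sum_sub_distrib]
  refine sum_congr rfl fun b _ => ?_
  have e0 : ∀ c, ((Fin.consEquiv fun _ => κ) (c, b) : Fin (n + 1) → κ) = Fin.cons c b :=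
    fun _ => rfl
  simp only [e0]
  by_cases hb : Function.Injective b
  · simp only [Fin.cons_injective_iff, hb, and_true, if_true,
      Fin.prod_univ_succ, Fin.cons_zero, Fin.cons_succ]
    have e : ∀ i : Fin n, ∏ j, Function.update (fun i : Fin n => x i.succ) i
        (fun c => x 0 c * x i.succ c) j (b j) = x 0 (b i) * ∏ j, x j.succ (b j) := fun i => by
      rw [← mul_prod_erase _ _ (mem_univ i), ← mul_prod_erase _ _ (mem_univ i),
        Function.update_self, mul_assoc]
      congr 2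
      exact prod_congr rfl fun j hj => by rw [Function.update_of_ne (ne_of_mem_erase hj)]
    simp only [e, ← sum_mul, ← sub_mul]
    rw [← sum_image (s := univ) (g := b) (f := x 0) fun i _ j _ h => hb h,
      ← sum_sdiff_eq_sub (subset_univ _), sum_mul, ← sum_filter]
    refine sum_congr ?_ fun _ _ => rfl
    ext c
    simp
  · simp [Fin.cons_injective_iff, hb]

omit [DecidableEq κ] in
theorem cs {u v : κ → ℝ} {m m' : ℝ} (hm : 0 ≤ m) (hm' : 0 ≤ m') (hu : ∑ c, u c ^ 2 ≤ m ^ 2)
    (hv : ∑ c, v c ^ 2 ≤ m' ^ 2) :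
    |∑ c, u c * v c| ≤ m * m' ∧ ∑ c, (u c * v c) ^ 2 ≤ (m * m') ^ 2 := by
  have h0 : ∑ c, u c ^ 2 * ∑ c, v c ^ 2 ≤ (m * m') ^ 2 := by
    rw [← sum_mul, mul_pow]
    exact mul_le_mul hu hv (sum_nonneg fun _ _ => sq_nonneg _) (sq_nonneg _)
  refine ⟨abs_le_of_sq_le_sq' ?_ (by positivity) |> abs_le.2, le_trans (sum_le_sum fun c _ => ?_) h0⟩
  · exact (sum_mul_sq_le_sq_mul_sq _ _ _).trans (by rwa [sum_mul])
  · rw [mul_pow]
    exact mul_le_mul_of_nonneg_left (single_le_sum (f := fun c => v c ^ 2)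
      (fun _ _ => sq_nonneg _) (mem_univ c)) (sq_nonneg _)

theorem abs_Dj {n : ℕ} : ∀ (x : Fin n → κ → ℝ) (m : Fin n → ℝ), (∀ i, |∑ c, x i c| ≤ m i) →
    (∀ i, ∑ c, x i c ^ 2 ≤ m i ^ 2) → |Dj x| ≤ n.factorial * ∏ i, m i := by
  induction n with
  | zero => intro x m _ _; simp [Dj_zero]
  | succ n ih =>
    intro x m h1 h2
    have h0 : ∀ i, 0 ≤ m i := fun i => (abs_nonneg _).trans (h1 i)
    have hP : 0 ≤ ∏ i : Fin n, m i.succ := prod_nonneg fun i _ => h0 _
    have k : ∀ i : Fin n, |Dj (Function.update (fun i : Fin n => x i.succ) i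
        fun c => x 0 c * x i.succ c)| ≤ n.factorial * (m 0 * ∏ i : Fin n, m i.succ) := fun i => by
      have c := cs (h0 0) (h0 i.succ) (h2 0) (h2 i.succ)
      refine (ih _ (Function.update (fun i : Fin n => m i.succ) i (m 0 * m i.succ)) (fun j => ?_)
        fun j => ?_).trans (le_of_eq ?_)
      · by_cases h : j = i
        · subst h; simpa using c.1
        · simpa [h] using h1 _
      · by_cases h : j = i
        · subst h; simpa using c.2
        · simpa [h] using h2 _
      · rw [prod_update_of_mem (mem_univ i), ← mul_prod_erase _ _ (mem_univ i), sdiff_singleton_eq_erase,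
          mul_assoc]
    rw [Dj_succ, Fin.prod_univ_succ, Nat.factorial_succ]
    refine (abs_sub _ _).trans ?_
    have a1 := mul_le_mul (h1 0) (ih _ _ (fun i => h1 i.succ) fun i => h2 i.succ) (abs_nonneg _)
      (h0 0)
    have a2 := (abs_sum_le_sum_abs _ _).trans (sum_le_sum fun i (_ : i ∈ univ) => k i)
    rw [sum_const, card_univ, Fintype.card_fin, nsmul_eq_mul] at a2
    rw [abs_mul]
    push_cast
    nlinarith

theorem abs_prod_le {ι : Type*} (s : Finset ι) {u : ι → ℝ} {m : ℝ} (h : ∀ i, |u i| ≤ m) :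
    |∏ i ∈ s, u i| ≤ m ^ s.card := by
  rw [abs_prod, ← prod_const]
  exact prod_le_prod (fun _ _ => abs_nonneg _) fun i _ => h i

/-- The coincidences of indices are small when no term dominates. -/
theorem Dj_sub {n : ℕ} {m θ : ℝ} (hθ : 0 ≤ θ) (hθ1 : θ ≤ 1) (hm : 0 ≤ m) :
    ∀ x : Fin n → κ → ℝ, (∀ i, |∑ c, x i c| ≤ m) → (∀ i, ∑ c, x i c ^ 2 ≤ (θ * m) ^ 2) →
      |(∏ i, ∑ c, x i c) - Dj x| ≤ n.factorial * θ * m ^ n := by
  induction n with
  | zero => intro x _ _; simp [Dj_zero, hθ]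
  | succ n ih =>
    intro x h1 h2
    have h3 : ∀ i, ∑ c, x i c ^ 2 ≤ m ^ 2 := fun i => (h2 i).trans
      (pow_le_pow_left₀ (by positivity) (mul_le_of_le_one_left hm hθ1) 2)
    have k : ∀ i : Fin n, |Dj (Function.update (fun i : Fin n => x i.succ) i
        fun c => x 0 c * x i.succ c)| ≤ n.factorial * (θ * m * m ^ n) := fun i => by
      have c := cs (by positivity) hm (h2 0) (h3 i.succ)
      refine (abs_Dj _ (Function.update (fun _ => m) i (θ * m * m)) (fun j => ?_)
        fun j => ?_).trans (le_of_eq ?_)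
      · by_cases h : j = i
        · subst h; simpa using c.1
        · simpa [h] using h1 _
      · by_cases h : j = i
        · subst h; simpa using c.2
        · simpa [h] using h3 _
      · rw [prod_update_of_mem (mem_univ i), sdiff_singleton_eq_erase, mul_assoc (θ * m),
          mul_prod_erase _ (fun _ => m) (mem_univ i), prod_const, card_univ, Fintype.card_fin]
    have e : (∏ i, ∑ c, x i c) - Dj x = (∑ c, x 0 c) * ((∏ i : Fin n, ∑ c, x i.succ c) -
        Dj fun i => x i.succ) + ∑ i : Fin n, Dj (Function.update (fun i : Fin n => x i.succ) i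
          fun c => x 0 c * x i.succ c) := by
      rw [Dj_succ, Fin.prod_univ_succ]
      ring
    rw [e, Nat.factorial_succ]
    refine (abs_add_le _ _).trans ?_
    have a1 := mul_le_mul (h1 0) (ih _ (fun i => h1 i.succ) fun i => h2 i.succ) (abs_nonneg _) hm
    have a2 := (abs_sum_le_sum_abs _ _).trans (sum_le_sum fun i (_ : i ∈ univ) => k i)
    rw [sum_const, card_univ, Fintype.card_fin, nsmul_eq_mul] at a2
    rw [abs_mul, pow_succ]
    push_cast
    nlinarith

/-- Telescoping of products. -/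
theorem prod_sub {ι : Type*} [DecidableEq ι] (s : Finset ι) {u v : ι → ℝ} {m θ : ℝ} (hθ : 0 ≤ θ)
    (hu : ∀ i, |u i| ≤ m) (hv : ∀ i, |v i| ≤ m) (h : ∀ i, |u i - v i| ≤ θ * m) :
    |∏ i ∈ s, u i - ∏ i ∈ s, v i| ≤ s.card * θ * m ^ s.card := by
  induction s using Finset.induction_on with
  | empty => simp
  | insert i s hi ih =>
    have hm := (abs_nonneg _).trans (hu i)
    rw [prod_insert hi, prod_insert hi, card_insert_of_notMem hi,
      show u i * ∏ i ∈ s, u i - v i * ∏ i ∈ s, v i =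
        u i * (∏ i ∈ s, u i - ∏ i ∈ s, v i) + (u i - v i) * ∏ i ∈ s, v i by ring]
    refine (abs_add_le _ _).trans ?_
    have a1 := mul_le_mul (hu i) ih (abs_nonneg _) hm
    have a2 := mul_le_mul (h i) (abs_prod_le s hv) (abs_nonneg _) (by positivity)
    rw [abs_mul, abs_mul, pow_succ]
    push_cast
    nlinarith

/-- The power of a sum. -/
theorem pow_sum_le {ι : Type*} (s : Finset ι) {u : ι → ℝ} (hu : ∀ i, 0 ≤ u i) {p : ℕ}
    (hp : p ≠ 0) : (∑ i ∈ s, u i) ^ p ≤ s.card ^ (p - 1) * ∑ i ∈ s, u i ^ p := by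
  obtain ⟨p, rfl⟩ := Nat.exists_eq_succ_of_ne_zero hp
  exact pow_sum_le_card_mul_sum_pow (fun i _ => hu i) p

end Vale.Agent.P144F
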