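import Vale.Agent.P144F.Diff
import Mathlib.Analysis.SpecialFunctions.Pow.Integral
import Mathlib.MeasureTheory.Integral.Marginal
import Mathlib.MeasureTheory.Group.Integral
import Mathlib.LinearAlgebra.Complex.FiniteDimensional

/-!
An integrable majorant of the spin correlations, with a bound on its growth.
-/

namespace Vale.Agent.P144F

open Filter Topology MeasureTheory Vale.Agent.P144 Finset

/-- The spin correlation is bounded by the product of the local scales to the power `-1/8`. -/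
def PB (μ : ℝ → Measure Config) (K : Set ℂ) : Prop :=
  ∃ C r : ℝ, 0 < C ∧ 0 < r ∧ ∀ᶠ a in 𝓝[>] (0 : ℝ), ∀ (n : ℕ) (x : Fin n → ℂ) (ρ : Fin n → ℝ),
    (∀ i, x i ∈ K) → (∀ i, 0 < ρ i) → (∀ i, ρ i ≤ r) → (∀ i j, i ≠ j → ρ i ≤ ‖x i - x j‖) →
      |cr a (μ a) x| ≤ ∏ i, C / rt (ρ i)

/-- The inverse distances to the earlier points. -/
noncomputable def al (r : ℝ) {n : ℕ} (rk : Fin n → ℕ) (x : Fin n → ℂ) (i : Fin n) : ℝ :=
  r⁻¹ + ∑ j with rk j < rk i, ‖x i - x j‖⁻¹

/-- One factor of the majorant. -/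
noncomputable def fa (r R : ℝ) {n : ℕ} (rk : Fin n → ℕ) (x : Fin n → ℂ) (i : Fin n) : ℝ :=
  if ‖x i‖ ≤ R then rt (al r rk x i) ^ 2 else 0

theorem fa_nonneg (r R : ℝ) {n : ℕ} (rk : Fin n → ℕ) (x : Fin n → ℂ) (i : Fin n) :
    0 ≤ fa r R rk x i := by
  unfold fa
  split_ifs
  exacts [sq_nonneg _, le_rfl]

theorem meas_fa (r R : ℝ) {n : ℕ} (rk : Fin n → ℕ) (i : Fin n) :
    Measurable fun x => fa r R rk x i := by
  refine Measurable.ite (measurableSet_le (by fun_prop) measurable_const) ?_ measurable_const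
  unfold al rt
  fun_prop

theorem rt_sq_le {u t : ℝ} (hu : 0 ≤ u) (ht : 0 < t) : rt u ^ 2 ≤ u / t ^ 6 + t ^ 2 := by
  have h0 : 0 ≤ rt u := Real.rpow_nonneg hu _
  rcases le_total (rt u) t with h | h
  · exact (pow_le_pow_left₀ h0 h 2).trans (le_add_of_nonneg_left (by positivity))
  · refine le_trans ?_ (le_add_of_nonneg_right (by positivity))
    rw [le_div_iff₀ (by positivity)]
    calc rt u ^ 2 * t ^ 6 ≤ rt u ^ 2 * rt u ^ 6 := by gcongr
      _ = u := by rw [← pow_add, rt_pow hu]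

theorem one_pt {r : ℝ} (hr : 0 < r) (R : ℝ) : ∃ c : ℝ, 0 < c ∧ ∀ (n : ℕ) (rk : Fin n → ℕ)
    (x : Fin n → ℂ) (i : Fin n), ∫⁻ y, ENNReal.ofReal (fa r R rk (Function.update x i y) i) ≤
      ENNReal.ofReal (c * rt n ^ 2) := by
  set φ : ℂ → ℝ := (Metric.ball 0 1).indicator fun y => ‖y‖⁻¹ with hφ
  set χ : ℂ → ℝ := (Metric.closedBall 0 R).indicator fun _ => 1 with hχ
  have iφ : Integrable φ := (integrable_indicator_iff Metric.isOpen_ball.measurableSet).2
    (integrableOn_ball_of_norm_le_rpow (C := 1) (α := 1) (by simp) (by simp)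
      (Eventually.of_forall fun y => by simp [Real.rpow_neg_one]) (by fun_prop))
  have iχ : Integrable χ := (integrable_indicator_iff Metric.isClosed_closedBall.measurableSet).2
    (integrableOn_const measure_closedBall_lt_top.ne)
  have φ0 : ∀ y, 0 ≤ φ y := fun y => Set.indicator_nonneg (fun _ _ => by positivity) y
  have χ0 : ∀ y, 0 ≤ χ y := fun y => Set.indicator_nonneg (fun _ _ => zero_le_one) y
  have φ1 : ∀ y : ℂ, ‖y‖⁻¹ ≤ 1 + φ y := fun y => by
    by_cases hy : y ∈ Metric.ball (0 : ℂ) 1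
    · rw [hφ, Set.indicator_of_mem hy]
      linarith
    · have := inv_le_one_of_one_le₀ (not_lt.1 (mem_ball_zero_iff.not.1 hy))
      linarith [φ0 y]
  have I0 : 0 ≤ ∫ y, φ y := integral_nonneg φ0
  have I1 : 0 ≤ ∫ y, χ y := integral_nonneg χ0
  refine ⟨(r⁻¹ + 2) * (∫ y, χ y) + (∫ y, φ y) + 1, by positivity, fun n rk x i => ?_⟩
  have hn : (1 : ℝ) ≤ n := by exact_mod_cast i.pos
  have t1 : 1 ≤ rt n := le_rt zero_le_one (by simpa using hn)
  have t8 := rt_pow (s := n) (by positivity)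
  generalize rt n = t at t1 t8 ⊢
  set A := univ.filter fun j => rk j < rk i with hA
  have cA : (A.card : ℝ) ≤ n := by exact_mod_cast (card_le_univ A).trans_eq (Fintype.card_fin n)
  have ih : Integrable fun y => ∑ j ∈ A, φ (y - x j) :=
    integrable_finsetSum _ fun j _ => iφ.comp_sub_right _
  have i2 : Integrable fun y => (r⁻¹ + 2) * t ^ 2 * χ y + (∑ j ∈ A, φ (y - x j)) / t ^ 6 :=
    (iχ.const_mul ((r⁻¹ + 2) * t ^ 2)).add (ih.div_const (t ^ 6))
  have p6 : 0 < t ^ 6 := by positivity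
  have s0 : ∀ y, 0 ≤ ∑ j ∈ A, φ (y - x j) := fun y => sum_nonneg fun _ _ => φ0 _
  refine (lintegral_mono fun y => ENNReal.ofReal_le_ofReal (q := (r⁻¹ + 2) * t ^ 2 * χ y +
    (∑ j ∈ A, φ (y - x j)) / t ^ 6) ?_).trans ?_
  · have s1 := div_nonneg (s0 y) p6.le
    unfold fa
    split_ifs with hy
    · rw [Function.update_self] at hy
      have e : al r rk (Function.update x i y) i = r⁻¹ + ∑ j ∈ A, ‖y - x j‖⁻¹ := by
        rw [al, Function.update_self]
        refine congrArg _ (sum_congr rfl fun j hj => ?_)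
        rw [Function.update_of_ne fun e => (mem_filter.1 hj).2.ne (congrArg rk e)]
      have k1 : ∑ j ∈ A, ‖y - x j‖⁻¹ ≤ n + ∑ j ∈ A, φ (y - x j) := by
        refine (sum_le_sum fun j _ => φ1 _).trans ?_
        rw [sum_add_distrib, sum_const, nsmul_eq_mul, mul_one]
        linarith
      rw [e, hχ, Set.indicator_of_mem (mem_closedBall_zero_iff.2 hy), mul_one]
      refine (rt_sq_le (t := t) (by positivity) (by linarith)).trans ?_
      have k2 := div_le_div_of_nonneg_right (add_le_add_right k1 r⁻¹) p6.le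
      have k3 : r⁻¹ / t ^ 6 ≤ r⁻¹ * t ^ 2 := (div_le_self (by positivity) (one_le_pow₀ t1)).trans
        (le_mul_of_one_le_right (by positivity) (one_le_pow₀ t1))
      have k4 : n / t ^ 6 = t ^ 2 := by rw [← t8]; field_simp
      rw [add_div, add_div, add_div, k4] at k2
      rw [add_div]
      linarith
    · have := χ0 y
      positivity
  · rw [← ofReal_integral_eq_lintegral_ofReal i2 (Eventually.of_forall fun y => by
      have := χ0 y
      have := s0 y
      change (0 : ℝ) ≤ _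
      positivity)]
    refine ENNReal.ofReal_le_ofReal ?_
    rw [integral_add (iχ.const_mul _) (ih.div_const _), integral_const_mul, integral_div,
      integral_finsetSum _ fun j _ => iφ.comp_sub_right _]
    simp only [integral_sub_right_eq_self, sum_const, nsmul_eq_mul]
    have k1 : (A.card * ∫ y, φ y) / t ^ 6 ≤ (∫ y, φ y) * t ^ 2 := by
      rw [div_le_iff₀ p6, mul_assoc, ← pow_add, t8, mul_comm]
      exact mul_le_mul_of_nonneg_left cA I0
    nlinarith [sq_nonneg t]

theorem int_fa {r : ℝ} (hr : 0 < r) (R : ℝ) : ∃ c : ℝ, 0 < c ∧ ∀ (n : ℕ) (rk : Fin n → ℕ),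
    Integrable (fun x => ∏ i, fa r R rk x i) ∧ ∫ x, ∏ i, fa r R rk x i ≤ (c * rt n ^ 2) ^ n := by
  obtain ⟨c, hc, h⟩ := one_pt hr R
  refine ⟨c, hc, fun n rk => ?_⟩
  have ms : ∀ s : Finset (Fin n), Measurable fun x => ∏ i ∈ s, ENNReal.ofReal (fa r R rk x i) :=
    fun s => Finset.measurable_prod _ fun i _ => (meas_fa r R rk i).ennreal_ofReal
  have key : ∀ s : Finset (Fin n), ∀ z, (∫⋯∫⁻_s, (fun x => ∏ i ∈ s, ENNReal.ofReal (fa r R rk x i))
      ∂fun _ => volume) z ≤ ENNReal.ofReal (c * rt n ^ 2) ^ s.card := by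
    intro s
    induction s using Finset.induction_on_max_value rk with
    | empty => simp
    | insert i s hi hm ih =>
      intro z
      rw [lmarginal_insert' _ (ms _) hi, card_insert_of_notMem hi, pow_succ]
      refine le_trans (lmarginal_mono (g := fun x => (∏ i ∈ s, ENNReal.ofReal (fa r R rk x i)) *
        ENNReal.ofReal (c * rt n ^ 2)) (fun x => ?_) z) ?_
      · have e : ∀ y, ∏ j ∈ s, ENNReal.ofReal (fa r R rk (Function.update x i y) j) =
            ∏ j ∈ s, ENNReal.ofReal (fa r R rk x j) := fun y => prod_congr rfl fun j hj => by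
          have e1 := Function.update_of_ne (ne_of_mem_of_not_mem hj hi) y x
          rw [fa, fa, al, al, e1, sum_congr rfl fun l hl => by
            rw [Function.update_of_ne fun e : l = i =>
              ((mem_filter.1 hl).2.trans_le (hm j hj)).ne (congrArg rk e)]]
        simp only [prod_insert hi, e]
        rw [lintegral_mul_const' _ _ (ENNReal.prod_ne_top fun _ _ => ENNReal.ofReal_ne_top),
          mul_comm]
        exact mul_le_mul_right (h n rk x i) _
      · rw [lmarginal, lintegral_mul_const' _ _ ENNReal.ofReal_ne_top]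
        exact mul_le_mul_left (ih z) _
  have k := key univ 0
  have p : 0 ≤ c * rt n ^ 2 := by positivity
  rw [← lintegral_eq_lmarginal_univ, card_univ, Fintype.card_fin, ← ENNReal.ofReal_pow p,
    ← volume_pi] at k
  simp only [← ENNReal.ofReal_prod_of_nonneg fun i _ => fa_nonneg r R rk _ i] at k
  have m := (Finset.measurable_prod univ fun i _ => meas_fa r R rk i).aestronglyMeasurable
    (μ := volume)
  have nn : ∀ x, 0 ≤ ∏ i, fa r R rk x i := fun x => prod_nonneg fun i _ => fa_nonneg r R rk x i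
  refine ⟨⟨m, (hasFiniteIntegral_iff_ofReal (Eventually.of_forall nn)).2
    (k.trans_lt ENNReal.ofReal_lt_top)⟩, ?_⟩
  rw [integral_eq_lintegral_of_nonneg_ae (Eventually.of_forall nn) m]
  exact ENNReal.toReal_le_of_le_ofReal (by positivity) k

theorem PB.dom {μ : ℝ → Measure Config} {K : Set ℂ} (h : PB μ K) {R : ℝ}
    (hR : ∀ z ∈ K, ‖z‖ ≤ R) : ∃ c : ℝ, 0 < c ∧ ∀ n : ℕ, ∃ G : (Fin n → ℂ) → ℝ, Integrable G ∧
      (∀ x, 0 ≤ G x) ∧ ∫ x, G x ≤ 2 * (c * rt n ^ 2) ^ n ∧ ∀ᶠ a in 𝓝[>] (0 : ℝ), ∀ x,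
        Function.Injective x → (∀ i, x i ∈ K) → |cr a (μ a) x| ≤ G x := by
  obtain ⟨C, r, hC, hr, h⟩ := h
  obtain ⟨c, hc, hi⟩ := int_fa hr R
  have r0 := rt_pos hr
  refine ⟨C * rt r * c, by positivity, fun n => ?_⟩
  set rk : Fin n → ℕ := fun i => i with hrk
  set rk' : Fin n → ℕ := fun i => n - i with hrk'
  have nn : ∀ rk x, 0 ≤ ∏ i : Fin n, fa r R rk x i := fun rk x =>
    prod_nonneg fun i _ => fa_nonneg r R rk x i
  refine ⟨fun x => (C * rt r) ^ n * (∏ i, fa r R rk x i + ∏ i, fa r R rk' x i),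
    ((hi n rk).1.add (hi n rk').1).const_mul _, fun x => ?_, ?_, ?_⟩
  · have := nn rk x
    have := nn rk' x
    positivity
  · rw [integral_const_mul, integral_add (hi n rk).1 (hi n rk').1, mul_assoc _ c, mul_pow _ (c * _),
      mul_left_comm, two_mul]
    exact mul_le_mul_of_nonneg_left (add_le_add (hi n rk).2 (hi n rk').2) (by positivity)
  filter_upwards [h] with a h x hx hK
  have lo : ∀ rk i, r⁻¹ ≤ al r rk x i := fun rk i =>
    le_add_of_nonneg_right (sum_nonneg fun _ _ => by positivity)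
  have p0 : ∀ rk i, 0 < al r rk x i := fun rk i => (inv_pos.2 hr).trans_le (lo rk i)
  have lo' : ∀ rk i j, rk j < rk i → ‖x i - x j‖⁻¹ ≤ al r rk x i := fun rk i j hj =>
    (single_le_sum (f := fun j => ‖x i - x j‖⁻¹) (fun _ _ => by positivity)
      (mem_filter.2 ⟨mem_univ j, hj⟩)).trans (le_add_of_nonneg_left (by positivity))
  have p1 : ∀ i, 0 < max (al r rk x i) (al r rk' x i) := fun i => lt_max_of_lt_left (p0 rk i)
  refine (h n x (fun i => (max (al r rk x i) (al r rk' x i))⁻¹) hK (fun i => inv_pos.2 (p1 i))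
    (fun i => inv_le_of_inv_le₀ hr (le_max_of_le_left (lo rk i))) fun i j hij =>
      inv_le_of_inv_le₀ (norm_pos_iff.2 (sub_ne_zero.2 (hx.ne hij))) ?_).trans ?_
  · rcases hij.lt_or_gt with e | e
    · exact le_max_of_le_right (lo' rk' i j (by have := j.2; simp only [hrk']; omega))
    · exact le_max_of_le_left (lo' rk i j e)
  have k : ∀ i, C / rt (max (al r rk x i) (al r rk' x i))⁻¹ ≤
      C * rt r * (rt (al r rk x i) * rt (al r rk' x i)) := fun i => by
    have a1 := p0 rk i
    have a2 := p0 rk' i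
    rw [inv_eq_one_div, rt_div zero_le_one (p1 i).le, rt, Real.one_rpow, div_div_eq_mul_div, div_one,
      mul_assoc, ← rt_mul a1.le a2.le, ← rt_mul hr.le (by positivity)]
    refine mul_le_mul_of_nonneg_left (rt_le (p1 i).le (max_le ?_ ?_)) hC.le
    · rw [mul_left_comm]
      exact le_mul_of_one_le_right a1.le ((inv_le_iff_one_le_mul₀' hr).1 (lo rk' i))
    · rw [← mul_assoc]
      exact le_mul_of_one_le_left a2.le ((inv_le_iff_one_le_mul₀' hr).1 (lo rk i))
  refine (prod_le_prod (fun i _ => div_nonneg hC.le (rt_pos (inv_pos.2 (p1 i))).le)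
    fun i _ => k i).trans ?_
  rw [prod_mul_distrib, prod_const, card_univ, Fintype.card_fin, prod_mul_distrib]
  refine mul_le_mul_of_nonneg_left ?_ (by positivity)
  simp only [fa, hR _ (hK _), if_true, prod_pow]
  nlinarith [sq_nonneg (∏ i, rt (al r rk x i) - ∏ i, rt (al r rk' x i)),
    sq_nonneg (∏ i, rt (al r rk x i)), sq_nonneg (∏ i, rt (al r rk' x i))]

theorem PB.zb {μ : ℝ → Measure Config} {K : Set ℂ} (h : PB μ K) : ZB μ K := by
  obtain ⟨C, r, hC, hr, h⟩ := h
  intro q k _ hk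
  have hk' : (2 : ℝ) ≤ k := by exact_mod_cast hk
  refine ⟨(C * rt k) ^ (2 * q), 1, r, hr, ?_⟩
  filter_upwards [h, self_mem_nhdsWithin] with a h ha s s1 s2 x x1 _ x3
  have hs : 0 < s := lt_of_lt_of_le (by simpa using ha) s1
  have r1 := rt_pos hs
  have r2 : 0 < rt k := rt_pos (by linarith)
  refine (mul_le_mul_of_nonneg_right (h _ x (fun _ => s / k) x1 (fun _ => by positivity)
    (fun _ => (div_le_self hs.le (by linarith)).trans s2) x3) (by positivity)).trans_eq ?_
  rw [prod_const, card_univ, Fintype.card_fin, ← mul_pow, rt_div hs.le (by positivity)]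
  congr 1
  field_simp

theorem ae_inj (n : ℕ) : ∀ᵐ x : Fin n → ℂ, Function.Injective x := by
  have h : ∀ i j : Fin n, ∀ᵐ x : Fin n → ℂ, x i = x j → i = j := fun i j => by
    rcases eq_or_ne i j with rfl | h
    · exact Eventually.of_forall fun _ _ => rfl
    have := Measure.addHaar_submodule (volume : Measure (Fin n → ℂ))
      (LinearMap.eqLocus (LinearMap.proj (R := ℝ) (φ := fun _ => ℂ) i) (LinearMap.proj j)) fun e => by
        have := e ▸ Submodule.mem_top (x := (Pi.single i 1 : Fin n → ℂ))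
        simp [LinearMap.mem_eqLocus, h.symm] at this
    exact (measure_eq_zero_iff_ae_notMem.1 this).mono fun x hx e => absurd e hx
  filter_upwards [eventually_all.2 fun i => eventually_all.2 (h i)] with x hx i j using hx i j

end Vale.Agent.P144F
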