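import Vale.Agent.P144F.Cf

/-!
Convergence of the moments and of the laws of the smeared field.
-/

namespace Vale.Agent.P144F

open Filter Topology MeasureTheory Vale.Agent.P144 Finset

/-- The smeared correlation functions are integrable, with a bound on their growth. -/
def Gw (K : Set ℂ) (C : Pts → ℝ) : Prop :=
  ∃ c, 0 < c ∧ ∀ (n : ℕ) (f : Fin n → ℂ → ℝ), (∀ i, Tb K (f i)) →
    Integrable (smear C f) ∧ |∫ x, smear C f x| ≤ 2 * (c * rt n ^ 2) ^ n

/-- The moments of the field converge. -/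
def Cv (μ : ℝ → Measure Config) (K : Set ℂ) (Z : ℝ) (C : Pts → ℝ) : Prop :=
  ∀ (n : ℕ) (f : Fin n → ℂ → ℝ), (∀ i, Tb K (f i)) →
    Tendsto (fun a => ∫ σ, ∏ i, field a (f i) σ ∂μ a) (𝓝[>] 0) (𝓝 (Z ^ n * ∫ x, smear C f x))

variable {K D : Set ℂ} {C : Pts → ℝ} {μ μ₀ : ℝ → Measure Config} {R Z : ℝ}

theorem Tb.mi' {f : ℂ → ℝ} (h : Tb K f) (hR : ∀ z ∈ K, ‖z‖ ≤ R) : Mi f :=
  h.mi one_pos fun z hz => mem_bx one_pos (hR z (h.2.2 z hz)) (Nat.le_ceil _)

theorem PB.cv [∀ a, IsProbabilityMeasure (μ a)] (h : PB μ K) (hR : ∀ z ∈ K, ‖z‖ ≤ R)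
    (hC : ∀ (n : ℕ) (x : Fin n → ℂ), Function.Injective x → (∀ i, x i ∈ K) →
      Tendsto (fun a => cr a (μ a) x) (𝓝[>] 0) (𝓝 (C (spins x)))) : Gw K C ∧ Cv μ K 1 C := by
  obtain ⟨c, hc, h⟩ := h.dom hR
  have key : ∀ (n : ℕ) (f : Fin n → ℂ → ℝ), (∀ i, Tb K (f i)) → (Integrable (smear C f) ∧
      |∫ x, smear C f x| ≤ 2 * (c * rt n ^ 2) ^ n) ∧ Tendsto (fun a => ∫ σ, ∏ i, field a (f i) σ ∂μ a)
        (𝓝[>] 0) (𝓝 (1 ^ n * ∫ x, smear C f x)) := by
    intro n f hf
    obtain ⟨G, g1, g0, g2, g3⟩ := h n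
    have ms : ∀ a, AEStronglyMeasurable fun x : Fin n → ℂ => (∏ i, f i (x i)) * cr a (μ a) x :=
      fun a => ((meas_prod fun i => (hf i).1).mul (meas_cr a _ n)).aestronglyMeasurable
    have z : ∀ x : Fin n → ℂ, (∀ i, x i ∈ K) ∨ ∏ i, f i (x i) = 0 := fun x => by
      refine or_iff_not_imp_right.2 fun h i => (hf i).2.2 _ fun e => h ?_
      exact prod_eq_zero (mem_univ i) e
    have lim : ∀ᵐ x : Fin n → ℂ, Tendsto (fun a => (∏ i, f i (x i)) * cr a (μ a) x) (𝓝[>] 0)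
        (𝓝 (smear C f x)) := (ae_inj n).mono fun x hx => by
      rcases z x with e | e
      · exact (hC n x hx e).const_mul _
      · simp [smear, e]
    have bd : ∀ᶠ a in 𝓝[>] (0 : ℝ), ∀ x : Fin n → ℂ, Function.Injective x →
        ‖(∏ i, f i (x i)) * cr a (μ a) x‖ ≤ G x := g3.mono fun a ha x hx => by
      rcases z x with e | e
      · rw [Real.norm_eq_abs, abs_mul]
        exact (mul_le_of_le_one_left (abs_nonneg _) ((abs_prod_le _ fun i => (hf i).2.1 _).trans_eq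
          (one_pow _))).trans (ha x hx e)
      · simpa [e] using g0 x
    have b2 : ∀ᵐ x : Fin n → ℂ, ‖smear C f x‖ ≤ G x := by
      filter_upwards [lim, ae_inj n] with x h1 h2
      exact le_of_tendsto h1.norm (bd.mono fun a ha => ha x h2)
    refine ⟨⟨g1.mono' (aestronglyMeasurable_of_tendsto_ae _ ms lim) b2,
      (norm_integral_le_of_norm_le g1 b2).trans g2⟩, ?_⟩
    rw [one_pow, one_mul]
    refine (tendsto_integral_filter_of_dominated_convergence G (Eventually.of_forall ms)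
      (bd.mono fun a ha => (ae_inj n).mono ha) g1 lim).congr' ?_
    filter_upwards [self_mem_nhdsWithin] with a ha
    exact (prod_field _ ha fun i => (hf i).mi' hR).symm
  exact ⟨⟨c, hc, fun n f hf => (key n f hf).1⟩, fun n f hf => (key n f hf).2⟩

theorem Cv.of_diff [∀ a, IsProbabilityMeasure (μ a)] [∀ a, IsProbabilityMeasure (μ₀ a)]
    (h : Cv μ₀ K 1 C) (h₀ : MB μ₀ K) (h₁ : MB μ K) (hD : UD μ μ₀ Z K) (hR : ∀ z ∈ K, ‖z‖ ≤ R) :
    Cv μ K Z C := fun n f hf => by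
  simpa using (diff h₁ h₀ hD hR hf).add ((h n f hf).const_mul (Z ^ n))

/-- Bounded measurable functions that vanish outside `K`. -/
def Tk (K : Set ℂ) (f : ℂ → ℝ) : Prop := ∃ B g, 0 < B ∧ Tb K g ∧ f = fun z => B * g z

theorem tk_iff {f : ℂ → ℝ} :
    Tk K f ↔ Measurable f ∧ (∃ B, ∀ z, |f z| ≤ B) ∧ ∀ z, f z ≠ 0 → z ∈ K := by
  constructor
  · rintro ⟨B, g, hB, hg, rfl⟩
    refine ⟨hg.1.const_mul B, ⟨B, fun z => ?_⟩, fun z hz => hg.2.2 z (right_ne_zero_of_mul hz)⟩
    rw [abs_mul, abs_of_pos hB]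
    exact mul_le_of_le_one_right hB.le (hg.2.1 z)
  · rintro ⟨m, ⟨B, hB⟩, hK⟩
    have p : 0 < |B| + 1 := by positivity
    refine ⟨|B| + 1, fun z => f z / (|B| + 1), p, ⟨m.div_const _, fun z => ?_,
      fun z hz => hK z fun e => hz (by simp [e])⟩, funext fun z => by field_simp⟩
    rw [abs_div, abs_of_pos p, div_le_one p]
    linarith [hB z, le_abs_self B]

theorem Tk.sum {r : ℕ} {f : Fin r → ℂ → ℝ} (hf : ∀ i, Tk K (f i)) (t : Fin r → ℝ) :
    Tk K fun z => ∑ i, t i * f i z := by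
  simp only [tk_iff] at hf ⊢
  choose m b s using hf
  choose B hB using b
  refine ⟨Finset.measurable_sum _ fun i _ => (m i).const_mul _, ⟨∑ i, |t i| * B i, fun z =>
    (abs_sum_le_sum_abs _ _).trans (sum_le_sum fun i _ => ?_)⟩, fun z hz => ?_⟩
  · rw [abs_mul]
    exact mul_le_mul_of_nonneg_left (hB i z) (abs_nonneg _)
  · obtain ⟨i, -, hi⟩ := exists_ne_zero_of_sum_ne_zero hz
    exact s i z (right_ne_zero_of_mul hi)

theorem Tk.mi {f : ℂ → ℝ} (h : Tk K f) (hR : ∀ z ∈ K, ‖z‖ ≤ R) : Mi f := by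
  obtain ⟨B, g, -, hg, rfl⟩ := h
  exact ⟨hg.1.const_mul B, (hg.mi' hR).2.const_mul B⟩

theorem smear_mul {n : ℕ} (B : Fin n → ℝ) (g : Fin n → ℂ → ℝ) :
    smear C (fun i z => B i * g i z) = fun x => (∏ i, B i) * smear C g x := by
  funext x
  simp only [smear, prod_mul_distrib, mul_assoc]

theorem Cv.tk (h : Cv μ K Z C) {n : ℕ} {f : Fin n → ℂ → ℝ} (hf : ∀ i, Tk K (f i)) :
    Tendsto (fun a => ∫ σ, ∏ i, field a (f i) σ ∂μ a) (𝓝[>] 0) (𝓝 (Z ^ n * ∫ x, smear C f x)) := by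
  choose B g _ hg e using hf
  obtain rfl : f = fun i z => B i * g i z := funext e
  simp only [smear_mul, field_mul, prod_mul_distrib, integral_const_mul, mul_left_comm (Z ^ n)]
  exact (h n g hg).const_mul _

theorem Gw.int (h : Gw K C) {n : ℕ} {f : Fin n → ℂ → ℝ} (hf : ∀ i, Tk K (f i)) :
    Integrable (smear C f) := by
  choose B g _ hg e using hf
  obtain rfl : f = fun i z => B i * g i z := funext e
  rw [smear_mul]
  exact (h.choose_spec.2 n g hg).1.const_mul _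

theorem Gw.gr (h : Gw K C) {f : ℂ → ℝ} (hf : Tk K f) (Z : ℝ) :
    Gr fun k => Z ^ k * ∫ x, smear C (fun _ : Fin k => f) x := by
  obtain ⟨B, g, hB, hg, rfl⟩ := hf
  obtain ⟨c, hc, h⟩ := h
  refine ⟨(|Z| + 1) * (B * c), by positivity, fun k => ?_⟩
  simp only [smear_mul (fun _ : Fin k => B) fun _ => g, integral_const_mul, abs_mul, abs_pow,
    prod_const, card_univ, Fintype.card_fin, abs_of_pos hB]
  calc _ ≤ (|Z| + 1) ^ k * (B ^ k * (2 * (c * rt k ^ 2) ^ k)) := by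
        gcongr
        exacts [le_add_of_nonneg_right zero_le_one, (h k _ fun _ => hg).2]
    _ = _ := by simp only [mul_pow]; ring

theorem Test.exists {r : ℕ} {f : Fin r → ℂ → ℝ} (hf : ∀ i, Test D (f i)) :
    ∃ K ⊆ D, IsCompact K ∧ ∀ i, Tk K (f i) := by
  choose m b K k1 k2 k3 using hf
  exact ⟨⋃ i, K i, Set.iUnion_subset k1, isCompact_iUnion k2, fun i => tk_iff.2
    ⟨m i, b i, fun z hz => Set.mem_iUnion.2 ⟨i, by_contra fun e => hz (k3 i z e)⟩⟩⟩

theorem meas_field (a : ℝ) {f : ℂ → ℝ} (h : Measurable f) : Measurable (field a f) :=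
  (StronglyMeasurable.integral_prod_right (f := fun σ z => f z * S a z σ)
    ((h.comp measurable_snd).mul (meas_S a)).stronglyMeasurable).measurable

/-- The vector of the smeared fields. -/
noncomputable def vec {r : ℕ} (f : Fin r → ℂ → ℝ) (a : ℝ) (σ : Config) :
    EuclideanSpace ℝ (Fin r) := WithLp.toLp 2 fun i => field a (f i) σ

theorem meas_vec {r : ℕ} {f : Fin r → ℂ → ℝ} (hf : ∀ i, Measurable (f i)) (a : ℝ) :
    Measurable (vec f a) :=
  (WithLp.measurable_toLp 2 _).comp (measurable_pi_lambda _ fun i => meas_field a (hf i))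

/-- The law of the vector. -/
noncomputable def law (μ : ℝ → Measure Config) [∀ a, IsProbabilityMeasure (μ a)] {r : ℕ}
    {f : Fin r → ℂ → ℝ} (hf : ∀ i, Measurable (f i)) (a : ℝ) :
    ProbabilityMeasure (EuclideanSpace ℝ (Fin r)) :=
  ⟨(μ a).map (vec f a), Measure.isProbabilityMeasure_map (meas_vec hf a).aemeasurable⟩

theorem cf_vec [∀ a, IsProbabilityMeasure (μ a)] (h : Cv μ K Z C) (hG : Gw K C)
    (hR : ∀ z ∈ K, ‖z‖ ≤ R) {r : ℕ} {f : Fin r → ℂ → ℝ} (hf : ∀ i, Tk K (f i))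
    (hm : ∀ i, Measurable (f i)) (t : EuclideanSpace ℝ (Fin r)) :
    Tendsto (fun a => charFun (law μ hm a : Measure _) t) (𝓝[>] 0)
      (𝓝 (psi fun k => Z ^ k * ∫ x, smear C (fun (_ : Fin k) z => ∑ i, t i * f i z) x)) := by
  have hg := Tk.sum hf t
  refine (cf_lim (μ := μ) (fun a ha => (hg.mi hR).bm ha) (hG.gr hg Z) fun k => by
    simpa using h.tk fun _ : Fin k => hg).congr' ?_
  filter_upwards [self_mem_nhdsWithin] with a ha
  rw [charFun_apply, law, ProbabilityMeasure.coe_mk,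
    integral_map (meas_vec hm a).aemeasurable (by fun_prop)]
  refine integral_congr_ae (Eventually.of_forall fun σ => ?_)
  dsimp only
  rw [field_sum univ (f := fun i z => t i * f i z)
    (fun i _ => ⟨(hm i).const_mul _, ((hf i).mi hR).2.const_mul _⟩) ha]
  simp [vec, PiLp.inner_apply, field_mul]

theorem law_one [∀ a, IsProbabilityMeasure (μ₀ a)] (h : Cv μ₀ K 1 C) (hG : Gw K C)
    (hR : ∀ z ∈ K, ‖z‖ ≤ R) {r : ℕ} {f : Fin r → ℂ → ℝ} (hf : ∀ i, Tk K (f i)) :
    ∃ ν : Measure (Fin r → ℝ), IsProbabilityMeasure ν ∧ (∀ (n : ℕ) (k : Fin n → Fin r),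
      Integrable (fun v => ∏ i, v (k i)) ν ∧
        ∫ v, ∏ i, v (k i) ∂ν = ∫ x, smear C (fun i => f (k i)) x) ∧
      ∀ (μ : ℝ → Measure Config) [∀ a, IsProbabilityMeasure (μ a)] (Z : ℝ), Cv μ K Z C →
        ∀ G : BoundedContinuousFunction (Fin r → ℝ) ℝ, Tendsto
          (fun a => ∫ σ, G (fun i => field a (f i) σ) ∂μ a) (𝓝[>] 0) (𝓝 (∫ v, G (Z • v) ∂ν)) := by
  have hm : ∀ i, Measurable (f i) := fun i => (tk_iff.1 (hf i)).1
  have bm : ∀ i, ∀ a > 0, Bm (field a (f i)) := fun i a ha => ((hf i).mi hR).bm ha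
  have cf := cf_vec h hG hR hf hm
  generalize hφ : (fun t : EuclideanSpace ℝ (Fin r) => psi fun k => (1 : ℝ) ^ k *
    ∫ x, smear C (fun (_ : Fin k) z => ∑ i, t i * f i z) x) = φ
  replace cf : ∀ t, Tendsto (fun a => charFun (law μ₀ hm a : Measure _) t) (𝓝[>] 0) (𝓝 (φ t)) :=
    hφ ▸ cf
  have t2 := tendsto_finsetSum univ fun i _ => h.tk fun _ : Fin 2 => hf i
  set M := ∑ i, (1 : ℝ) ^ 2 * ∫ x, smear C (fun _ : Fin 2 => f i) x with hM
  have b1 : ∀ t, ‖φ t - 1‖ ≤ ‖t‖ * (1 + M) := fun t => by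
    refine le_of_tendsto_of_tendsto ((cf t).sub_const 1).norm ((t2.const_add 1).const_mul ‖t‖) ?_
    filter_upwards [self_mem_nhdsWithin] with a ha
    have i1 : Integrable (fun σ => Complex.exp (inner ℝ (vec f a σ) t * Complex.I)) (μ₀ a) :=
      (integrable_const (1 : ℝ)).mono' (by have := meas_vec hm a; fun_prop)
        (Eventually.of_forall fun σ => (Complex.norm_exp_ofReal_mul_I _).le)
    have i2 := fun i => ((bm i a ha).pow 2).int (μ₀ a)
    have e1 : (1 : ℂ) = ∫ _, 1 ∂μ₀ a := by simp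
    have e2 : (1 : ℝ) = ∫ _, 1 ∂μ₀ a := by simp
    simp only [prod_const, card_univ, Fintype.card_fin]
    rw [charFun_apply, law, ProbabilityMeasure.coe_mk,
      integral_map (meas_vec hm a).aemeasurable (by fun_prop), e1,
      ← integral_sub i1 (integrable_const _), ← integral_finsetSum _ fun i _ => i2 i, e2,
      ← integral_add (integrable_const _) (integrable_finsetSum _ fun i _ => i2 i),
      ← integral_const_mul]
    refine norm_integral_le_of_norm_le (((integrable_const _).add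
      (integrable_finsetSum _ fun i _ => i2 i)).const_mul _) (Eventually.of_forall fun σ => ?_)
    rw [mul_comm _ Complex.I]
    refine Real.norm_exp_I_mul_ofReal_sub_one_le.trans ((norm_inner_le_norm _ _).trans ?_)
    rw [mul_comm]
    refine mul_le_mul_of_nonneg_left ?_ (norm_nonneg _)
    have e3 : ∑ i, field a (f i) σ ^ 2 = ‖vec f a σ‖ ^ 2 := by
      simp [EuclideanSpace.norm_sq_eq, vec]
    rw [e3]
    nlinarith [norm_nonneg (vec f a σ)]
  have c0 : ContinuousAt φ 0 := by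
    have e : φ 0 = 1 := by simpa [sub_eq_zero] using b1 0
    rw [ContinuousAt, e, tendsto_iff_norm_sub_tendsto_zero]
    refine squeeze_zero (fun _ => norm_nonneg _) b1 ?_
    simpa using (continuous_norm.tendsto (0 : EuclideanSpace ℝ (Fin r))).mul_const (1 + M)
  obtain ⟨ν, hν⟩ := exists_law c0 cf
  have co : Continuous (WithLp.ofLp : EuclideanSpace ℝ (Fin r) → Fin r → ℝ) := by fun_prop
  have mo := co.measurable
  have key : ∀ (μ : ℝ → Measure Config) [∀ a, IsProbabilityMeasure (μ a)] (Z : ℝ), Cv μ K Z C →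
      ∀ G : BoundedContinuousFunction (Fin r → ℝ) ℝ,
        Tendsto (fun a => ∫ σ, G (fun i => field a (f i) σ) ∂μ a) (𝓝[>] 0)
          (𝓝 (∫ v, G (Z • v) ∂(ν : Measure (EuclideanSpace ℝ (Fin r))).map WithLp.ofLp)) := by
    intro μ _ Z hZ G
    have ms : Measurable fun v : EuclideanSpace ℝ (Fin r) => Z • v := by fun_prop
    have t3 : Tendsto (law μ hm) (𝓝[>] 0) (𝓝 (ν.map ms.aemeasurable)) := tendsto_law fun t => by
      rw [ProbabilityMeasure.toMeasure_map, charFun_map_smul, hν, ← hφ]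
      convert cf_vec hZ hG hR hf hm t using 4 with k
      have e := smear_mul (C := C) (fun _ : Fin k => Z) fun _ z => ∑ i, t i * f i z
      simp only [mul_sum, ← mul_assoc] at e
      simp [e, integral_const_mul]
    have t4 := ProbabilityMeasure.tendsto_iff_forall_integral_tendsto.1 t3
      (G.compContinuous ⟨_, co⟩)
    rw [ProbabilityMeasure.toMeasure_map, integral_map ms.aemeasurable (by fun_prop)] at t4
    rw [integral_map mo.aemeasurable (by fun_prop)]
    refine t4.congr fun a => ?_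
    rw [law, ProbabilityMeasure.coe_mk, integral_map (meas_vec hm a).aemeasurable (by fun_prop)]
    rfl
  have pr : IsProbabilityMeasure ((ν : Measure (EuclideanSpace ℝ (Fin r))).map WithLp.ofLp) :=
    Measure.isProbabilityMeasure_map mo.aemeasurable
  refine ⟨_, pr, fun n k => ?_, key⟩
  have mv : ∀ a, Measurable fun σ i => field a (f i) σ := fun a =>
    measurable_pi_lambda _ fun i => meas_field a (hm i)
  have pr' : ∀ a, IsProbabilityMeasure ((μ₀ a).map fun σ i => field a (f i) σ) := fun a =>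
    Measure.isProbabilityMeasure_map (mv a).aemeasurable
  have t5 := h.tk (n := n + n) (f := fun i => f (Fin.append k k i)) fun i => hf _
  obtain ⟨k1, k2⟩ := mom_lim (P := fun a => (μ₀ a).map fun σ i => field a (f i) σ)
    (ν := (ν : Measure (EuclideanSpace ℝ (Fin r))).map WithLp.ofLp) (fun G => by
      simpa only [integral_map (mv _).aemeasurable G.continuous.aestronglyMeasurable, one_smul]
        using key μ₀ 1 h G) ⟨fun v => ∏ i, v (k i), by fun_prop⟩ (by
      filter_upwards [t5.eventually (ge_mem_nhds (lt_add_one _)), self_mem_nhdsWithin] with a h1 ha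
      refine ⟨(integrable_map_measure (by fun_prop) (mv a).aemeasurable).2
        (((Bm.prod univ fun i _ => bm (k i) a ha).pow 2).int _), ?_⟩
      rw [integral_map (mv a).aemeasurable (by fun_prop)]
      simpa only [Fin.prod_univ_add, Fin.append_left, Fin.append_right, sq,
        ContinuousMap.coe_mk] using h1)
  refine ⟨k1, tendsto_nhds_unique k2 ?_⟩
  have t6 := h.tk (f := fun i => f (k i)) fun i => hf _
  rw [one_pow, one_mul] at t6
  refine t6.congr fun a => ?_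
  rw [integral_map (mv a).aemeasurable (by fun_prop)]
  rfl

/-- The family `E` is the expectation in the measures `μ a`. -/
def Rep (E : Fam) (μ : ℝ → Measure Config) : Prop := ∀ a > 0, ∀ F, E a F = ∫ σ, F σ ∂μ a

theorem Rep.tendsto {E : Fam} (h : Rep E μ) {F : ℝ → Config → ℝ} {c : ℝ} :
    Tendsto (fun a => E a (F a)) (𝓝[>] 0) (𝓝 c) ↔
      Tendsto (fun a => ∫ σ, F a σ ∂μ a) (𝓝[>] 0) (𝓝 c) :=
  tendsto_congr' (eventually_mem_nhdsWithin.mono fun a ha => h a ha _)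

theorem main_law [∀ a, IsProbabilityMeasure (μ₀ a)]
    (h : ∀ K ⊆ D, IsCompact K → Gw K C ∧ Cv μ₀ K 1 C) : ∃ ν, IsLaw D C ν ∧
      ∀ (E : Fam) (μ : ℝ → Measure Config) [∀ a, IsProbabilityMeasure (μ a)] (Z : ℝ), Rep E μ →
        (∀ K ⊆ D, IsCompact K → Cv μ K Z C) → FieldLim D E Z ν := by
  have key : ∀ (r : ℕ) (f : Fin r → ℂ → ℝ), ∃ ν : Measure (Fin r → ℝ), (∀ i, Test D (f i)) →
      (IsProbabilityMeasure ν ∧ ∀ (n : ℕ) (k : Fin n → Fin r),
        Integrable (smear C fun i => f (k i)) ∧ Integrable (fun v => ∏ i, v (k i)) ν ∧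
          ∫ v, ∏ i, v (k i) ∂ν = ∫ x, smear C (fun i => f (k i)) x) ∧
      ∀ (E : Fam) (μ : ℝ → Measure Config) [∀ a, IsProbabilityMeasure (μ a)] (Z : ℝ), Rep E μ →
        (∀ K ⊆ D, IsCompact K → Cv μ K Z C) →
          Tendsto (fun a => E a fun σ => ∏ i, field a (f i) σ) (𝓝[>] 0)
            (𝓝 (Z ^ r * ∫ v, ∏ i, v i ∂ν)) ∧ ∀ G : BoundedContinuousFunction (Fin r → ℝ) ℝ,
              Tendsto (fun a => E a fun σ => G fun i => field a (f i) σ) (𝓝[>] 0)
                (𝓝 (∫ v, G (Z • v) ∂ν)) := by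
    intro r f
    by_cases hf : ∀ i, Test D (f i)
    swap
    · exact ⟨0, fun h => absurd h hf⟩
    obtain ⟨K, k1, k2, k3⟩ := Test.exists hf
    obtain ⟨R, hR⟩ := k2.isBounded.exists_norm_le
    obtain ⟨ν, n1, n2, n3⟩ := law_one (h K k1 k2).2 (h K k1 k2).1 hR k3
    refine ⟨ν, fun _ => ⟨⟨n1, fun n k => ⟨(h K k1 k2).1.int fun i => k3 _, n2 n k⟩⟩,
      fun E μ _ Z hE hZ => ⟨hE.tendsto.2 ?_, fun G => hE.tendsto.2 (n3 μ Z (hZ K k1 k2) G)⟩⟩⟩
    rw [(n2 r fun i => i).2]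
    exact (hZ K k1 k2).tk k3
  choose ν hν using key
  exact ⟨ν, fun r f hf => (hν r f hf).1, fun E μ _ Z hE hZ r f hf => (hν r f hf).2 E μ Z hE hZ⟩

end Vale.Agent.P144F
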