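import Vale.Agent.P144F.Mom

/-!
From the bound on separated clusters to the moments of the field in a cell.
-/

namespace Vale.Agent.P144F

open Filter Topology MeasureTheory Vale.Agent.P144 Finset

/-- The spin correlation of a separated cluster of size `s` has the order `s ^ (-p / 8)`, for all
sizes between the mesh and one. -/
def ZB (μ : ℝ → Measure Config) (K : Set ℂ) : Prop :=
  ∀ q k : ℕ, q ≠ 0 → 2 ≤ k → ∃ A L₀ r : ℝ, 0 < r ∧ ∀ᶠ a in 𝓝[>] (0 : ℝ), ∀ s, L₀ * a ≤ s → s ≤ r →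
    ∀ x : Fin (2 * q) → ℂ, (∀ i, x i ∈ K) → (∀ i j, ‖x i - x j‖ ≤ 2 * s) →
      (∀ i j, i ≠ j → s / k ≤ ‖x i - x j‖) → |cr a (μ a) x| * rt s ^ (2 * q) ≤ A

/-- The moments of the field in a cell. -/
def MB (μ : ℝ → Measure Config) (K : Set ℂ) : Prop :=
  ∀ q : ℕ, q ≠ 0 → ∃ B r : ℝ, 0 < B ∧ 0 < r ∧ ∀ᶠ a in 𝓝[>] (0 : ℝ), ∀ s, 0 < s → s ≤ r → ∀ f c,
    Tb K f → ∫ σ, field a (pc s f c) σ ^ (2 * q) ∂μ a ≤ B * (rt s ^ 15) ^ (2 * q)

theorem step {μ : Measure Config} [IsProbabilityMeasure μ] {K : Set ℂ} {q k : ℕ} (hq : q ≠ 0)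
    (hk : 0 < k) {a s A Y : ℝ} (ha : 0 < a) (hs : 0 < s) (hA : 0 ≤ A) (hY : 0 ≤ Y)
    (h1 : ∀ x : Fin (2 * q) → ℂ, (∀ i, x i ∈ K) → (∀ i j, ‖x i - x j‖ ≤ 2 * s) →
      (∀ i j, i ≠ j → s / k ≤ ‖x i - x j‖) → |cr a μ x| ≤ A)
    (h2 : ∀ f c, Tb K f → ∫ σ, field a (pc (s / k) f c) σ ^ (2 * q) ∂μ ≤ Y) {f : ℂ → ℝ}
    (hf : Tb K f) (c : Site) : ∫ σ, field a (pc s f c) σ ^ (2 * q) ∂μ ≤ 4 ^ (2 * q) *
      (2 * (A * (s ^ 2) ^ (2 * q)) + (2 * (2 * q).factorial) ^ (2 * q) * (k ^ (2 * q) * Y)) := by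
  have hk' : (0 : ℝ) < k := by exact_mod_cast hk
  have hs' : 0 < s / k := by positivity
  set g := pc s f c with hg
  have tg : Tb K g := hf.pc s c
  set I : Finset Site := Ico (k * c.1) (k * c.1 + k) ×ˢ Ico (k * c.2) (k * c.2 + k) with hI
  have cI : I.card = k ^ 2 := by simp [hI, sq]
  have mI : ∀ z, g z ≠ 0 → fl (s / k) z ∈ I := fun z hz => by
    rw [hI, ← (pc_ne hz).1]
    exact mem_product.2 ⟨floor_sub _ _ hk, floor_sub _ _ hk⟩
  set T : Finset Site := range 2 ×ˢ range 2 |>.image fun p : ℕ × ℕ => ((p.1 : ℤ), (p.2 : ℤ)) with hT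
  have cT : T.card = 4 := by decide
  have bm : ∀ c, Bm (field a (pc (s / k) g c)) := fun c => (tg.mi_pc hs' c).1.bm ha
  have e : ∀ σ, field a g σ = ∑ t ∈ T, ∑ c ∈ I with (c.1 % 2, c.2 % 2) = t,
      field a (pc (s / k) g c) σ := fun σ => by
    rw [tg.field hs' ha mI, sum_fiberwise_of_maps_to]
    intro c _
    refine mem_image.2 ⟨((c.1 % 2).toNat, (c.2 % 2).toNat), ?_, ?_⟩
    · simp only [mem_product, mem_range]
      omega
    · simp only [Prod.mk.injEq]
      omega
  simp only [e]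
  rw [show (4 : ℝ) = T.card by rw [cT]; norm_num]
  refine int_sum T (fun t => Bm.sum _ fun c _ => bm c) μ hq fun t _ => ?_
  set I' := I.filter fun c => (c.1 % 2, c.2 % 2) = t with hI'
  have cI' : (I'.card : ℝ) ≤ k ^ 2 := by exact_mod_cast (card_filter_le _ _).trans_eq cI
  refine (one_colour I' bm μ hq (X := A * ((s / k) ^ 2) ^ (2 * q)) (by positivity)
    (fun b hb => ?_) fun c _ => h2 g c tg).trans ?_
  · rw [prod_field μ ha fun i => (tg.mi_pc hs' (b i)).1]
    refine (abs_int_le (fun i => (tg.mi_pc hs' (b i)).1) fun x hx => h1 x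
      (fun i => (tg.pc _ _).2.2 _ (hx i)) (fun i j => cell_near hs
        ((pc_ne (pc_ne (hx i)).2).1.trans (pc_ne (pc_ne (hx j)).2).1.symm)) fun i j hij => ?_).trans
      (mul_le_mul_of_nonneg_left ?_ hA)
    · have e1 := (mem_filter.1 (b i).2).2.trans (mem_filter.1 (b j).2).2.symm
      rw [← (pc_ne (hx i)).1, ← (pc_ne (hx j)).1] at e1
      refine cell_far hs' (fun h => hij (hb (Subtype.ext ?_))) (congrArg Prod.fst e1)
        (congrArg Prod.snd e1)
      rw [← (pc_ne (hx i)).1, ← (pc_ne (hx j)).1, h]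
    · refine (prod_le_prod (fun i _ => integral_nonneg fun _ => abs_nonneg _)
        fun i _ => (tg.mi_pc hs' (b i)).2).trans_eq ?_
      rw [prod_const, card_univ, Fintype.card_fin]
  · have a1 : (I'.card : ℝ) ^ (2 * q) * (A * ((s / k) ^ 2) ^ (2 * q)) ≤ A * (s ^ 2) ^ (2 * q) := by
      rw [mul_left_comm, ← mul_pow]
      refine mul_le_mul_of_nonneg_left (pow_le_pow_left₀ (by positivity) ?_ _) hA
      refine (mul_le_mul_of_nonneg_right cI' (by positivity)).trans_eq ?_
      field_simp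
    have a2 : (I'.card : ℝ) ^ q * Y ≤ k ^ (2 * q) * Y := by
      rw [pow_mul]
      exact mul_le_mul_of_nonneg_right (pow_le_pow_left₀ (by positivity) cI' _) hY
    have a3 := mul_le_mul_of_nonneg_left a2
      (by positivity : (0 : ℝ) ≤ (2 * (2 * q).factorial) ^ (2 * q))
    linarith

theorem ZB.mb {μ : ℝ → Measure Config} [∀ a, IsProbabilityMeasure (μ a)] {K : Set ℂ}
    (h : ZB μ K) : MB μ K := by
  intro q hq
  set F : ℕ := 2 * (2 * q).factorial with hF
  have hF1 : 1 ≤ F := by have := Nat.factorial_pos (2 * q); omega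
  have hF' : (1 : ℝ) ≤ F := by exact_mod_cast hF1
  set k : ℕ := (8 * F) ^ 8 with hk
  have hk2 : 2 ≤ k := le_trans (by omega) (Nat.le_self_pow (by norm_num) (8 * F))
  have hk' : (2 : ℝ) ≤ k := by exact_mod_cast hk2
  have rk : (8 * F : ℝ) ≤ rt k := le_rt (by positivity) (by rw [hk]; push_cast; rfl)
  obtain ⟨A, L₀, r, hr, h⟩ := h q k hq hk2
  set L := max L₀ 1 with hL
  have hL0 : 0 < L := lt_max_of_lt_right one_pos
  set B := max (4 * (4 ^ (2 * q) * |A|)) (rt L ^ (2 * q)) with hB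
  have hB0 : 0 < B := lt_max_of_lt_right (pow_pos (rt_pos hL0) _)
  refine ⟨B, r, hB0, hr, ?_⟩
  filter_upwards [h, self_mem_nhdsWithin] with a h ha
  replace ha : 0 < a := ha
  have base : ∀ s, 0 < s → s ≤ L * a → ∀ f c, Tb K f →
      ∫ σ, field a (pc s f c) σ ^ (2 * q) ∂μ a ≤ B * (rt s ^ 15) ^ (2 * q) := by
    intro s hs hsa f c hf
    have r1 := rt_pos hs
    have r2 := rt_pos ha
    have k1 : ∀ σ, |field a (pc s f c) σ| ≤ rt L * rt s ^ 15 := fun σ => by
      refine (abs_field ha σ).trans ((mul_le_mul_of_nonneg_left (hf.mi_pc hs c).2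
        (Real.rpow_nonneg ha.le _)).trans ?_)
      have k2 := rt_le hs.le hsa
      rw [rt_mul hL0.le ha.le] at k2
      rw [rt_inv ha, inv_mul_le_iff₀ r2, ← rt_pow hs.le, rt_pow hs.le]
      calc s ^ 2 = rt s * rt s ^ 15 := by rw [← pow_succ', pow_mul _ 8 2, rt_pow hs.le]
        _ ≤ rt L * rt a * rt s ^ 15 := mul_le_mul_of_nonneg_right k2 (by positivity)
        _ = _ := by ring
    refine (integral_mono ((((hf.mi_pc hs c).1.bm ha).pow _).int _)
      (integrable_const ((rt L * rt s ^ 15) ^ (2 * q))) fun σ => ?_).trans ?_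
    · dsimp only
      rw [← (even_two_mul q).pow_abs]
      exact pow_le_pow_left₀ (abs_nonneg _) (k1 σ) _
    · rw [integral_const, probReal_univ, one_smul, mul_pow]
      exact mul_le_mul_of_nonneg_right (le_max_right _ _) (by positivity)
  have ind : ∀ (N : ℕ) (s : ℝ), 0 < s → s ≤ r → s ≤ k ^ N * (L * a) → ∀ f c, Tb K f →
      ∫ σ, field a (pc s f c) σ ^ (2 * q) ∂μ a ≤ B * (rt s ^ 15) ^ (2 * q) := by
    intro N
    induction N with
    | zero => exact fun s hs _ h => base s hs (by simpa using h)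
    | succ N ih =>
      intro s hs hsr hsN f c hf
      rcases le_total s (L * a) with hc | hc
      · exact base s hs hc f c hf
      have r1 := rt_pos hs
      have r2 : 0 < rt k := by linarith
      have hsk : 0 < s / k := by positivity
      have r3 := rt_pos hsk
      refine (step hq (by omega) ha hs (A := |A| / rt s ^ (2 * q))
        (Y := B * (rt (s / k) ^ 15) ^ (2 * q)) (by positivity) (by positivity)
        (fun x x1 x2 x3 => (le_div_iff₀ (by positivity)).2 ((h s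
          ((mul_le_mul_of_nonneg_right (le_max_left _ _) ha.le).trans hc) hsr x x1 x2 x3).trans
            (le_abs_self A))) (ih (s / k) hsk
          ((div_le_self hs.le (by linarith)).trans hsr) (by
            rw [div_le_iff₀ (by positivity)]
            exact hsN.trans_eq (by ring))) hf c).trans ?_
      have e1 : |A| / rt s ^ (2 * q) * (s ^ 2) ^ (2 * q) = |A| * (rt s ^ 15) ^ (2 * q) := by
        have : s ^ 2 = rt s ^ 15 * rt s := by rw [← pow_succ, pow_mul _ 8 2, rt_pow hs.le]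
        rw [this, mul_pow]
        field_simp
      have e2 : (4 : ℝ) ^ (2 * q) * ((2 * (2 * q).factorial) ^ (2 * q) * (k ^ (2 * q) *
          (B * (rt (s / k) ^ 15) ^ (2 * q)))) =
          (4 * F / rt k ^ 7) ^ (2 * q) * (B * (rt s ^ 15) ^ (2 * q)) := by
        have : (k : ℝ) = rt k ^ 8 := (rt_pow (by positivity)).symm
        rw [rt_div hs.le (by positivity), hF]
        generalize rt k = t at this r2 ⊢
        rw [this, mul_left_comm _ B, mul_left_comm _ B, mul_left_comm _ B, mul_left_comm _ B,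
          ← mul_pow, ← mul_pow, ← mul_pow, ← mul_pow]
        congr 2
        push_cast
        field_simp
      have e3 : (4 * F / rt k ^ 7 : ℝ) ^ (2 * q) ≤ 1 / 2 := by
        have k1 : (4 * F / rt k ^ 7 : ℝ) ≤ 1 / 2 := by
          rw [div_le_iff₀ (by positivity)]
          have := le_self_pow₀ (a := rt k) (by linarith) (n := 7) (by norm_num)
          linarith
        exact (pow_le_of_le_one (by positivity) (by linarith) (by omega)).trans k1
      rw [mul_add, e1, e2]
      have a1 := mul_le_mul_of_nonneg_right e3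
        (by positivity : 0 ≤ B * (rt s ^ 15) ^ (2 * q))
      have a2 := mul_le_mul_of_nonneg_right (le_max_left (4 * (4 ^ (2 * q) * |A|)) (rt L ^ (2 * q)))
        (by positivity : 0 ≤ (rt s ^ 15) ^ (2 * q))
      rw [← hB] at a2
      nlinarith
  intro s hs hsr
  obtain ⟨N, hN⟩ := pow_unbounded_of_one_lt (s / (L * a)) (by linarith : (1 : ℝ) < k)
  exact ind N s hs hsr ((div_le_iff₀ (by positivity)).1 hN.le)

end Vale.Agent.P144F
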