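import Vale.Agent.P144F.St
import Vale.Agent.P144F.Inj

/-!
A priori bounds on the moments of the smeared field, by induction on the scale.
-/

namespace Vale.Agent.P144F

open Filter Topology MeasureTheory Vale.Agent.P144 Finset

theorem bm_Dj {κ : Type*} [Fintype κ] [DecidableEq κ] {n : ℕ} {y : Fin n → κ → Config → ℝ}
    (h : ∀ i c, Bm (y i c)) : Bm fun σ => Dj fun i c => y i c σ := by
  refine Bm.sum _ fun b _ => ?_
  split_ifs
  exacts [Bm.prod _ fun i _ => h i _, Bm.const 0]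

theorem int_Dj {κ : Type*} [Fintype κ] [DecidableEq κ] {n : ℕ} {y : Fin n → κ → Config → ℝ}
    (h : ∀ i c, Bm (y i c)) (μ : Measure Config) [IsProbabilityMeasure μ] :
    ∫ σ, Dj (fun i c => y i c σ) ∂μ =
      ∑ b : Fin n → κ, if Function.Injective b then ∫ σ, ∏ i, y i (b i) σ ∂μ else 0 := by
  unfold Dj
  rw [integral_finsetSum]
  · refine sum_congr rfl fun b _ => ?_
    split_ifs
    exacts [rfl, integral_zero _ _]
  · intro b _
    split_ifs
    exacts [(Bm.prod _ fun i _ => h i _).int μ, integrable_zero _ _ _]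

theorem abs_sum_inj {κ : Type*} [Fintype κ] [DecidableEq κ] {n : ℕ} {u : (Fin n → κ) → ℝ} {X : ℝ}
    (hX : 0 ≤ X) (h : ∀ b, Function.Injective b → |u b| ≤ X) :
    |∑ b : Fin n → κ, if Function.Injective b then u b else 0| ≤ Fintype.card κ ^ n * X := by
  refine (abs_sum_le_sum_abs _ _).trans ((sum_le_card_nsmul _ _ X fun b _ => ?_).trans ?_)
  · split_ifs with hb
    exacts [h b hb, by rwa [abs_zero]]
  · simp

/-- The moments of a sum of squares. -/
theorem int_sq {κ : Type*} (I : Finset κ) {y : κ → Config → ℝ} (h : ∀ c, Bm (y c))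
    (μ : Measure Config) [IsProbabilityMeasure μ] {q : ℕ} (hq : q ≠ 0) {Y : ℝ}
    (hy : ∀ c ∈ I, ∫ σ, y c σ ^ (2 * q) ∂μ ≤ Y) :
    ∫ σ, (∑ c ∈ I, y c σ ^ 2) ^ q ∂μ ≤ I.card ^ q * Y := by
  refine (integral_mono (((Bm.sum I fun c _ => (h c).pow 2).pow q).int μ)
    (((Bm.const (I.card ^ (q - 1))).mul (Bm.sum I fun c _ => (h c).pow (2 * q))).int μ) fun σ =>
      (pow_sum_le I (fun c => sq_nonneg (y c σ)) hq).trans_eq (by simp only [pow_mul])).trans ?_
  rw [integral_const_mul, integral_finsetSum _ fun c _ => ((h c).pow _).int μ]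
  refine (mul_le_mul_of_nonneg_left (sum_le_card_nsmul _ _ Y hy) (by positivity)).trans_eq ?_
  rw [nsmul_eq_mul, ← mul_assoc, ← pow_succ, Nat.sub_add_cancel (Nat.pos_of_ne_zero hq)]

/-- The moments of a sum of absolute values. -/
theorem int_abs {κ : Type*} (I : Finset κ) {y : κ → Config → ℝ} (h : ∀ c, Bm (y c))
    (μ : Measure Config) [IsProbabilityMeasure μ] {q : ℕ} (hq : q ≠ 0) {Y : ℝ}
    (hy : ∀ c ∈ I, ∫ σ, y c σ ^ (2 * q) ∂μ ≤ Y) :
    ∫ σ, (∑ c ∈ I, |y c σ|) ^ (2 * q) ∂μ ≤ I.card ^ (2 * q) * Y := by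
  have hq' : 2 * q ≠ 0 := by omega
  refine (integral_mono (((Bm.sum I fun c _ => (h c).abs).pow _).int μ)
    (((Bm.const (I.card ^ (2 * q - 1))).mul (Bm.sum I fun c _ => (h c).pow (2 * q))).int μ) fun σ =>
      (pow_sum_le I (fun c => abs_nonneg (y c σ)) hq').trans_eq
        (by simp only [pow_mul, sq_abs])).trans ?_
  rw [integral_const_mul, integral_finsetSum _ fun c _ => ((h c).pow _).int μ]
  refine (mul_le_mul_of_nonneg_left (sum_le_card_nsmul _ _ Y hy) (by positivity)).trans_eq ?_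
  rw [nsmul_eq_mul, ← mul_assoc, ← pow_succ, Nat.sub_add_cancel (Nat.pos_of_ne_zero hq')]

theorem int_sum {κ : Type*} (I : Finset κ) {y : κ → Config → ℝ} (h : ∀ c, Bm (y c))
    (μ : Measure Config) [IsProbabilityMeasure μ] {q : ℕ} (hq : q ≠ 0) {Y : ℝ}
    (hy : ∀ c ∈ I, ∫ σ, y c σ ^ (2 * q) ∂μ ≤ Y) :
    ∫ σ, (∑ c ∈ I, y c σ) ^ (2 * q) ∂μ ≤ I.card ^ (2 * q) * Y := by
  refine le_trans (integral_mono (((Bm.sum I fun c _ => h c).pow _).int μ)
    (((Bm.sum I fun c _ => (h c).abs).pow _).int μ) fun σ => ?_) (int_abs I h μ hq hy)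
  dsimp only
  rw [← (even_two_mul q).pow_abs]
  exact pow_le_pow_left₀ (abs_nonneg _) (abs_sum_le_sum_abs _ _) _

theorem one_colour {κ : Type*} [DecidableEq κ] (I : Finset κ) {y : κ → Config → ℝ}
    (h : ∀ c, Bm (y c)) (μ : Measure Config) [IsProbabilityMeasure μ] {q : ℕ} (hq : q ≠ 0)
    {X Y : ℝ} (hX : 0 ≤ X)
    (hD : ∀ b : Fin (2 * q) → I, Function.Injective b → |∫ σ, ∏ i, y (b i) σ ∂μ| ≤ X)
    (hy : ∀ c ∈ I, ∫ σ, y c σ ^ (2 * q) ∂μ ≤ Y) : ∫ σ, (∑ c ∈ I, y c σ) ^ (2 * q) ∂μ ≤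
      2 * (I.card ^ (2 * q) * X) + (2 * (2 * q).factorial) ^ (2 * q) * (I.card ^ q * Y) := by
  set F : ℝ := 2 * (2 * q).factorial with hF
  have hF1 : 1 ≤ F := by
    have : (1 : ℝ) ≤ (2 * q).factorial := by exact_mod_cast Nat.factorial_pos _
    linarith
  have b1 := bm_Dj (n := 2 * q) (y := fun _ (c : I) => y c) fun _ c => h c
  have b2 := (Bm.sum I fun c _ => (h c).pow 2).pow q
  have pt : ∀ σ, (∑ c ∈ I, y c σ) ^ (2 * q) ≤ 2 * Dj (fun (_ : Fin (2 * q)) (c : I) => y c σ) +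
      F ^ (2 * q) * (∑ c ∈ I, y c σ ^ 2) ^ q := fun σ => by
    set u := ∑ c ∈ I, y c σ with hu
    set W := ∑ c ∈ I, y c σ ^ 2 with hW
    have hW0 : 0 ≤ W := sum_nonneg fun _ _ => sq_nonneg _
    have k := Dj_sub (n := 2 * q) (m := max |u| (F * √W)) (θ := F⁻¹) (by positivity)
      (inv_le_one_of_one_le₀ hF1) (by positivity) (fun _ (c : I) => y c σ)
      (fun _ => by rw [sum_coe_sort I fun c => y c σ]; exact le_max_left _ _) fun _ => by
        rw [sum_coe_sort I fun c => y c σ ^ 2, ← hW, ← Real.sqrt_le_left (by positivity),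
          le_inv_mul_iff₀ (by positivity)]
        exact le_max_right _ _
    rw [sum_coe_sort I fun c => y c σ, prod_const, card_univ, Fintype.card_fin, ← hu] at k
    have k1 : max |u| (F * √W) ^ (2 * q) ≤ u ^ (2 * q) + F ^ (2 * q) * W ^ q := by
      have e : F ^ (2 * q) * W ^ q = (F * √W) ^ (2 * q) := by
        rw [mul_pow F, pow_mul √W, Real.sq_sqrt hW0]
      rw [e, ← (even_two_mul q).pow_abs u]
      rcases max_choice |u| (F * √W) with e | e <;> rw [e]
      exacts [le_add_of_nonneg_right (by positivity), le_add_of_nonneg_left (by positivity)]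
    have k2 : ((2 * q).factorial : ℝ) * F⁻¹ = 1 / 2 := by
      have : ((2 * q).factorial : ℝ) ≠ 0 := by positivity
      rw [hF]
      field_simp
    rw [k2] at k
    linarith [le_abs_self (u ^ (2 * q) - Dj fun (_ : Fin (2 * q)) (c : I) => y c σ)]
  refine (integral_mono (((Bm.sum I fun c _ => h c).pow _).int μ)
    ((((Bm.const 2).mul b1).add ((Bm.const _).mul b2)).int μ) pt).trans ?_
  rw [integral_add (((Bm.const 2).mul b1).int μ) (((Bm.const _).mul b2).int μ),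
    integral_const_mul, integral_const_mul, int_Dj (fun _ (c : I) => h c)]
  have a1 := (le_abs_self _).trans (abs_sum_inj hX hD)
  rw [Fintype.card_coe] at a1
  have a2 := mul_le_mul_of_nonneg_left (int_sq I h μ hq hy) (by positivity : 0 ≤ F ^ (2 * q))
  linarith

/-- Measurable functions bounded by one that vanish outside `K`. -/
def Tb (K : Set ℂ) (f : ℂ → ℝ) : Prop := Measurable f ∧ (∀ z, |f z| ≤ 1) ∧ ∀ z, f z ≠ 0 → z ∈ K

/-- The part of `f` in a cell of mesh `s`. -/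
noncomputable def pc (s : ℝ) (f : ℂ → ℝ) (c : Site) (z : ℂ) : ℝ := if fl s z = c then f z else 0

variable {K : Set ℂ} {f : ℂ → ℝ} {s a : ℝ} {c : Site}

theorem pc_ne {z : ℂ} (h : pc s f c z ≠ 0) : fl s z = c ∧ f z ≠ 0 := by
  unfold pc at h
  split_ifs at h with h'
  exacts [⟨h', h⟩, absurd rfl h]

theorem Tb.pc (h : Tb K f) (s : ℝ) (c : Site) : Tb K (pc s f c) := by
  refine ⟨h.1.ite (meas_fl s (measurableSet_singleton c)) measurable_const, fun z => ?_,
    fun z hz => h.2.2 z (pc_ne hz).2⟩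
  unfold P144F.pc
  split_ifs
  exacts [h.2.1 z, by simp]

theorem vol_cell (hs : 0 < s) (c : Site) : volume (fl s ⁻¹' {c}) = ENNReal.ofReal (s ^ 2) := by
  have e : fl s ⁻¹' {c} = Complex.measurableEquivRealProd ⁻¹'
      (Set.Ico (c.1 * s) (c.1 * s + s) ×ˢ Set.Ico (c.2 * s) (c.2 * s + s)) := by
    ext z
    simp only [Set.mem_preimage, Set.mem_singleton_iff, fl, Prod.ext_iff, Int.floor_eq_iff,
      Complex.measurableEquivRealProd_apply, Set.mem_prod, Set.mem_Ico, le_div_iff₀ hs,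
      div_lt_iff₀ hs, add_mul, one_mul]
  rw [e, Complex.volume_preserving_equiv_real_prod.measure_preimage_equiv, Measure.volume_eq_prod,
    Measure.prod_prod, Real.volume_Ico, Real.volume_Ico, add_sub_cancel_left, add_sub_cancel_left,
    ← ENNReal.ofReal_mul hs.le, sq]

theorem Tb.mi_pc (h : Tb K f) (hs : 0 < s) (c : Site) :
    Mi (P144F.pc s f c) ∧ ∫ z, |P144F.pc s f c z| ≤ s ^ 2 := by
  have m := meas_fl s (measurableSet_singleton c)
  have i1 : Integrable ((fl s ⁻¹' {c}).indicator fun _ => (1 : ℝ)) :=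
    (integrable_indicator_iff m).2 (integrableOn_const (by rw [vol_cell hs]; simp))
  have le : ∀ z, |P144F.pc s f c z| ≤ (fl s ⁻¹' {c}).indicator (fun _ => (1 : ℝ)) z := fun z => by
    by_cases hz : fl s z = c
    · rw [Set.indicator_of_mem (by exact hz)]
      exact (h.pc s c).2.1 z
    · rw [Set.indicator_of_notMem (by exact hz), P144F.pc, if_neg hz, abs_zero]
  have i2 := i1.mono' (h.pc s c).1.aestronglyMeasurable (Eventually.of_forall le)
  refine ⟨⟨(h.pc s c).1, i2⟩, (integral_mono i2.abs i1 le).trans_eq ?_⟩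
  rw [integral_indicator_const _ m, Measure.real, vol_cell hs, ENNReal.toReal_ofReal (sq_nonneg _),
    smul_eq_mul, mul_one]

theorem sum_pc {I : Finset Site} (hI : ∀ z, f z ≠ 0 → fl s z ∈ I) :
    f = fun z => ∑ c ∈ I, pc s f c z := by
  funext z
  simp only [pc, sum_ite_eq]
  split_ifs with h
  exacts [rfl, by_contra fun h' => h (hI z h')]

theorem Tb.mi (h : Tb K f) (hs : 0 < s) {I : Finset Site} (hI : ∀ z, f z ≠ 0 → fl s z ∈ I) :
    Mi f := ⟨h.1, by rw [sum_pc hI]; exact integrable_finsetSum _ fun c _ => (h.mi_pc hs c).1.2⟩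

theorem Tb.field (h : Tb K f) (hs : 0 < s) (ha : 0 < a) {I : Finset Site}
    (hI : ∀ z, f z ≠ 0 → fl s z ∈ I) (σ : Config) :
    field a f σ = ∑ c ∈ I, field a (P144F.pc s f c) σ := by
  rw [← field_sum I (fun c _ => (h.mi_pc hs c).1) ha, ← sum_pc hI]

/-- The eighth root. -/
noncomputable def rt (s : ℝ) : ℝ := s ^ (1 / 8 : ℝ)

theorem rt_pos (hs : 0 < s) : 0 < rt s := Real.rpow_pos_of_pos hs _

theorem rt_pow (hs : 0 ≤ s) : rt s ^ 8 = s := by
  rw [rt, ← Real.rpow_natCast, ← Real.rpow_mul hs]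
  norm_num

theorem rt_le {t : ℝ} (hs : 0 ≤ s) (h : s ≤ t) : rt s ≤ rt t :=
  Real.rpow_le_rpow hs h (by norm_num)

theorem rt_mul {t : ℝ} (hs : 0 ≤ s) (ht : 0 ≤ t) : rt (s * t) = rt s * rt t := Real.mul_rpow hs ht

theorem rt_div {t : ℝ} (hs : 0 ≤ s) (ht : 0 ≤ t) : rt (s / t) = rt s / rt t :=
  Real.div_rpow hs ht _

theorem rt_inv (ha : 0 < a) : a ^ (-(1 / 8) : ℝ) = (rt a)⁻¹ := Real.rpow_neg ha.le _

theorem le_rt {t : ℝ} (ht : 0 ≤ t) (h : t ^ 8 ≤ s) : t ≤ rt s :=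
  le_of_pow_le_pow_left₀ (n := 8) (by norm_num) (Real.rpow_nonneg ((pow_nonneg ht 8).trans h) _)
    (by rwa [rt_pow ((pow_nonneg ht 8).trans h)])

theorem floor_near {u v : ℝ} (hs : 0 < s) (h : ⌊u / s⌋ = ⌊v / s⌋) : |u - v| ≤ s := by
  have := Int.abs_sub_lt_one_of_floor_eq_floor h
  rw [← sub_div, abs_div, abs_of_pos hs, div_lt_one hs] at this
  exact this.le

theorem cell_near {z w : ℂ} (hs : 0 < s) (h : fl s z = fl s w) : ‖z - w‖ ≤ 2 * s := by
  have h1 := floor_near hs (congrArg Prod.fst h)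
  have h2 := floor_near hs (congrArg Prod.snd h)
  have := Complex.norm_le_abs_re_add_abs_im (z - w)
  rw [Complex.sub_re, Complex.sub_im] at this
  linarith

theorem floor_far {u v : ℝ} (hs : 0 < s) {k : ℤ} (h : ⌊u / s⌋ + k + 1 ≤ ⌊v / s⌋) :
    k * s ≤ v - u := by
  have h1 := Int.lt_floor_add_one (u / s)
  have h2 := Int.floor_le (v / s)
  have h3 : (⌊u / s⌋ : ℝ) + k + 1 ≤ ⌊v / s⌋ := by exact_mod_cast h
  rw [← le_div_iff₀ hs, sub_div]
  linarith

theorem cell_far {z w : ℂ} (hs : 0 < s) (h : fl s z ≠ fl s w)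
    (h1 : (fl s z).1 % 2 = (fl s w).1 % 2) (h2 : (fl s z).2 % 2 = (fl s w).2 % 2) :
    s ≤ ‖z - w‖ := by
  have k : ∀ u v : ℝ, ⌊u / s⌋ ≠ ⌊v / s⌋ → ⌊u / s⌋ % 2 = ⌊v / s⌋ % 2 → s ≤ |u - v| := by
    intro u v h h'
    rcases h.lt_or_gt with h | h
    · have := floor_far (k := 1) (u := u) (v := v) hs (by omega)
      rw [abs_sub_comm]
      exact le_trans (by simpa using this) (le_abs_self _)
    · have := floor_far (k := 1) (u := v) (v := u) hs (by omega)
      exact le_trans (by simpa using this) (le_abs_self _)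
  by_cases e : (fl s z).1 = (fl s w).1
  · exact (k z.im w.im (fun e' => h (Prod.ext e e')) h2).trans (Complex.abs_im_le_norm (z - w))
  · exact (k z.re w.re e h1).trans (Complex.abs_re_le_norm (z - w))

theorem floor_sub (u s : ℝ) {k : ℕ} (hk : 0 < k) :
    ⌊u / (s / k)⌋ ∈ Ico (k * ⌊u / s⌋) (k * ⌊u / s⌋ + k) := by
  have hk' : (0 : ℝ) < k := by exact_mod_cast hk
  have h1 := mul_le_mul_of_nonneg_left (Int.floor_le (u / s)) hk'.le
  have h2 := mul_lt_mul_of_pos_left (Int.lt_floor_add_one (u / s)) hk'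
  rw [mem_Ico, Int.le_floor, Int.floor_lt, div_div_eq_mul_div, mul_div_right_comm, mul_comm _ (k : ℝ)]
  push_cast
  exact ⟨h1, by linarith⟩

end Vale.Agent.P144F
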