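import Vale.Agent.P144F.Defs
import Mathlib.MeasureTheory.Integral.Pi
import Mathlib.MeasureTheory.Integral.Prod
import Mathlib.MeasureTheory.Function.Floor

/-!
Expectations, bounded observables and the moments of the smeared field.
-/

namespace Vale.Agent.P144F

open Filter Topology MeasureTheory Vale.Agent.P144 Finset

/-- The expectation in a probability measure. -/
def IsSt (E : (Config → ℝ) → ℝ) : Prop :=
  ∃ μ : Measure Config, IsProbabilityMeasure μ ∧ ∀ F, E F = ∫ σ, F σ ∂μ

theorem isSt_expect (β : ℝ) (H : Config → ℝ) (Λ : Finset Site) (η : Config) :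
    IsSt (P144.expect β H Λ η) := by
  set Z := ∑ T ∈ Λ.powerset, Real.exp (-β * H (ext Λ η T)) with hZ
  have hZ0 : 0 < Z := sum_pos (fun _ _ => Real.exp_pos _) ⟨∅, empty_mem_powerset _⟩
  set w : Finset Site → ℝ := fun T => Real.exp (-β * H (ext Λ η T)) / Z with hw
  have hw0 : ∀ T, 0 ≤ w T := fun T => by positivity
  have key : ∀ F : Config → ℝ, ∫ σ, F σ ∂(∑ T ∈ Λ.powerset,
      ENNReal.ofReal (w T) • Measure.dirac (ext Λ η T)) = P144.expect β H Λ η F := by
    intro F
    rw [integral_finsetSum_measure fun T _ =>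
      (integrable_dirac (by simp)).smul_measure ENNReal.ofReal_ne_top, P144.expect, ← hZ,
      sum_div]
    refine sum_congr rfl fun T _ => ?_
    rw [integral_smul_measure, integral_dirac, ENNReal.toReal_ofReal (hw0 T), smul_eq_mul, hw]
    ring
  refine ⟨_, ⟨?_⟩, fun F => (key F).symm⟩
  simp only [Measure.coe_finsetSum, Measure.coe_smul, Finset.sum_apply, Pi.smul_apply,
    measure_univ, smul_eq_mul, mul_one]
  rw [← ENNReal.ofReal_sum_of_nonneg fun T _ => hw0 T, hw, ← sum_div, ← hZ, div_self hZ0.ne',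
    ENNReal.ofReal_one]

theorem isSt_gibbs (J lam : ℝ) (V : Finset Site → ℝ) (β : ℝ) (b : Option Config)
    (Λ : Finset Site) : IsSt (gibbs J lam V β b Λ) := by
  cases b
  exacts [isSt_expect _ _ _ _, isSt_expect _ _ _ _]

/-- Bounded measurable observables. -/
def Bm (X : Config → ℝ) : Prop := Measurable X ∧ ∃ B, ∀ σ, |X σ| ≤ B

namespace Bm

variable {X Y : Config → ℝ}

theorem int (h : Bm X) (μ : Measure Config) [IsFiniteMeasure μ] : Integrable X μ := by
  obtain ⟨m, B, h⟩ := h
  exact (integrable_const B).mono' m.aestronglyMeasurable (Eventually.of_forall h)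

theorem const (c : ℝ) : Bm fun _ => c := ⟨measurable_const, |c|, fun _ => le_rfl⟩

theorem add (h : Bm X) (h' : Bm Y) : Bm fun σ => X σ + Y σ := by
  obtain ⟨m, B, h⟩ := h
  obtain ⟨m', B', h'⟩ := h'
  exact ⟨m.add m', B + B', fun σ => (abs_add_le _ _).trans (add_le_add (h σ) (h' σ))⟩

theorem mul (h : Bm X) (h' : Bm Y) : Bm fun σ => X σ * Y σ := by
  obtain ⟨m, B, h⟩ := h
  obtain ⟨m', B', h'⟩ := h'
  exact ⟨m.mul m', B * B', fun σ => (abs_mul _ _).trans_le
    (mul_le_mul (h σ) (h' σ) (abs_nonneg _) ((abs_nonneg _).trans (h σ)))⟩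

theorem sub (h : Bm X) (h' : Bm Y) : Bm fun σ => X σ - Y σ := by
  simpa [sub_eq_add_neg] using h.add ((const (-1)).mul h')

theorem abs (h : Bm X) : Bm fun σ => |X σ| := by
  obtain ⟨m, B, h⟩ := h
  exact ⟨continuous_abs.measurable.comp m, B, fun σ => by rw [abs_abs]; exact h σ⟩

theorem sum {ι : Type*} (s : Finset ι) {X : ι → Config → ℝ} (h : ∀ i ∈ s, Bm (X i)) :
    Bm fun σ => ∑ i ∈ s, X i σ := by
  classical
  induction s using Finset.induction_on with
  | empty => simpa using const 0
  | insert i s hi ih =>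
    simp only [sum_insert hi]
    exact (h i (mem_insert_self _ _)).add (ih fun j hj => h j (mem_insert_of_mem hj))

theorem prod {ι : Type*} (s : Finset ι) {X : ι → Config → ℝ} (h : ∀ i ∈ s, Bm (X i)) :
    Bm fun σ => ∏ i ∈ s, X i σ := by
  classical
  induction s using Finset.induction_on with
  | empty => simpa using const 1
  | insert i s hi ih =>
    simp only [prod_insert hi]
    exact (h i (mem_insert_self _ _)).mul (ih fun j hj => h j (mem_insert_of_mem hj))

theorem pow (h : Bm X) (n : ℕ) : Bm fun σ => X σ ^ n := by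
  simpa using prod (range n) (X := fun _ => X) fun _ _ => h

end Bm

theorem abs_sp (b : Bool) : |sp b| = 1 := by cases b <;> simp [sp]

theorem meas_fl (a : ℝ) : Measurable (fl a) :=
  (Int.measurable_floor.comp (Complex.measurable_re.div_const a)).prodMk
    (Int.measurable_floor.comp (Complex.measurable_im.div_const a))

/-- The rescaled spin at a point. -/
noncomputable def S (a : ℝ) (z : ℂ) (σ : Config) : ℝ := a ^ (-(1 / 8) : ℝ) * sp (σ (fl a z))

theorem abs_S {a : ℝ} (ha : 0 < a) (z : ℂ) (σ : Config) : |S a z σ| = a ^ (-(1 / 8) : ℝ) := by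
  rw [S, abs_mul, abs_sp, mul_one, abs_of_pos (Real.rpow_pos_of_pos ha _)]

theorem meas_S (a : ℝ) : Measurable fun p : Config × ℂ => S a p.2 p.1 := by
  have h : Measurable fun p : Config × Site => sp (p.1 p.2) :=
    measurable_from_prod_countable_left fun y =>
      (measurable_of_countable sp).comp (measurable_pi_apply y)
  exact measurable_const.mul (h.comp (measurable_fst.prodMk ((meas_fl a).comp measurable_snd)))

/-- Measurable and integrable functions. -/
def Mi (f : ℂ → ℝ) : Prop := Measurable f ∧ Integrable f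

variable {a : ℝ} {f g : ℂ → ℝ}

theorem Mi.int (h : Mi f) (ha : 0 < a) (σ : Config) : Integrable fun z => f z * S a z σ :=
  h.2.mul_bdd (c := a ^ (-(1 / 8) : ℝ))
    ((meas_S a).comp (measurable_const.prodMk measurable_id)).aestronglyMeasurable
    (Eventually.of_forall fun z => (abs_S ha z σ).le)

theorem field_eq (a : ℝ) (f : ℂ → ℝ) (σ : Config) : field a f σ = ∫ z, f z * S a z σ := rfl

theorem abs_field (ha : 0 < a) (σ : Config) :
    |field a f σ| ≤ a ^ (-(1 / 8) : ℝ) * ∫ z, |f z| := by
  rw [field_eq, ← integral_const_mul]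
  refine abs_integral_le_integral_abs.trans (le_of_eq ?_)
  simp only [abs_mul, abs_S ha, mul_comm]

theorem Mi.bm (h : Mi f) (ha : 0 < a) : Bm (field a f) :=
  ⟨(StronglyMeasurable.integral_prod_right (f := fun σ z => f z * S a z σ)
    ((h.1.comp measurable_snd).mul (meas_S a)).stronglyMeasurable).measurable, _, abs_field ha⟩

theorem field_sum {ι : Type*} (s : Finset ι) {f : ι → ℂ → ℝ} (h : ∀ i ∈ s, Mi (f i)) (ha : 0 < a)
    (σ : Config) : field a (fun z => ∑ i ∈ s, f i z) σ = ∑ i ∈ s, field a (f i) σ := by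
  simp only [field_eq, sum_mul]
  exact integral_finsetSum _ fun i hi => (h i hi).int ha σ

theorem field_sub (h : Mi f) (h' : Mi g) (ha : 0 < a) (σ : Config) :
    field a (fun z => f z - g z) σ = field a f σ - field a g σ := by
  simp only [field_eq, sub_mul]
  exact integral_sub (h.int ha σ) (h'.int ha σ)

theorem field_mul (c : ℝ) (σ : Config) : field a (fun z => c * f z) σ = c * field a f σ := by
  simp only [field_eq, mul_assoc, integral_const_mul]

/-- The rescaled spin correlation. -/
noncomputable def cr (a : ℝ) (μ : Measure Config) {n : ℕ} (x : Fin n → ℂ) : ℝ :=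
  ∫ σ, ∏ i, S a (x i) σ ∂μ

theorem corr_eq {E : (Config → ℝ) → ℝ} {μ : Measure Config} (h : ∀ F, E F = ∫ σ, F σ ∂μ) {n : ℕ}
    (x : Fin n → ℂ) : corr a E (spins x) = cr a μ x := by
  rw [corr, h]
  exact integral_congr_ae (Eventually.of_forall fun σ => (congrArg _ (Fin.prod_univ_zero _)).trans
    (mul_one _))

theorem meas_SS (a : ℝ) (n : ℕ) :
    Measurable fun p : Config × (Fin n → ℂ) => ∏ i, S a (p.2 i) p.1 :=
  Finset.measurable_prod _ fun i _ => (meas_S a).comp
    (measurable_fst.prodMk ((measurable_pi_apply i).comp measurable_snd))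

theorem meas_cr (a : ℝ) (μ : Measure Config) [SFinite μ] (n : ℕ) :
    Measurable fun x : Fin n → ℂ => cr a μ x :=
  (StronglyMeasurable.integral_prod_left (f := fun σ (x : Fin n → ℂ) => ∏ i, S a (x i) σ)
    (meas_SS a n).stronglyMeasurable).measurable

theorem int_prod {n : ℕ} {f : Fin n → ℂ → ℝ} (h : ∀ i, Mi (f i)) :
    Integrable fun x : Fin n → ℂ => ∏ i, f i (x i) := Integrable.fintype_prod fun i => (h i).2

theorem meas_prod {n : ℕ} {f : Fin n → ℂ → ℝ} (h : ∀ i, Measurable (f i)) :
    Measurable fun x : Fin n → ℂ => ∏ i, f i (x i) :=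
  Finset.measurable_prod _ fun i _ => (h i).comp (measurable_pi_apply i)

/-- The moments of the field are the smeared correlations. -/
theorem prod_field (μ : Measure Config) [IsProbabilityMeasure μ] (ha : 0 < a) {n : ℕ}
    {f : Fin n → ℂ → ℝ} (h : ∀ i, Mi (f i)) :
    ∫ σ, ∏ i, field a (f i) σ ∂μ = ∫ x : Fin n → ℂ, (∏ i, f i (x i)) * cr a μ x := by
  have e : ∀ σ, ∏ i, field a (f i) σ =
      ∫ x : Fin n → ℂ, (∏ i, f i (x i)) * ∏ i, S a (x i) σ := fun σ => by
    simp only [field_eq, ← prod_mul_distrib]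
    exact (integral_fintype_prod_volume_eq_prod fun i z => f i z * S a z σ).symm
  simp only [e, cr, ← integral_const_mul]
  refine integral_integral_swap ?_
  refine ((int_prod h).comp_snd μ).mul_bdd (c := ∏ _i : Fin n, a ^ (-(1 / 8) : ℝ))
    (meas_SS a n).aestronglyMeasurable (Eventually.of_forall fun p => ?_)
  simp only [Real.norm_eq_abs, abs_prod, abs_S ha, le_refl]

theorem abs_cr (μ : Measure Config) [IsProbabilityMeasure μ] (ha : 0 < a) {n : ℕ}
    (x : Fin n → ℂ) : |cr a μ x| ≤ (a ^ (-(1 / 8) : ℝ)) ^ n := by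
  have := norm_integral_le_of_norm_le_const (μ := μ) (f := fun σ => ∏ i, S a (x i) σ)
    (C := (a ^ (-(1 / 8) : ℝ)) ^ n) (Eventually.of_forall fun σ => by
      simp only [Real.norm_eq_abs, abs_prod, abs_S ha, prod_const, card_univ, Fintype.card_fin,
        le_refl])
  simpa [cr] using this

theorem int_cr (μ : Measure Config) [IsProbabilityMeasure μ] (ha : 0 < a) {n : ℕ}
    {f : Fin n → ℂ → ℝ} (h : ∀ i, Mi (f i)) :
    Integrable fun x : Fin n → ℂ => (∏ i, f i (x i)) * cr a μ x :=
  (int_prod h).mul_bdd (meas_cr a μ n).aestronglyMeasurable (Eventually.of_forall (abs_cr μ ha))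

/-- A bound on the support gives a bound on the integral. -/
theorem abs_int_le {n : ℕ} {f : Fin n → ℂ → ℝ} (h : ∀ i, Mi (f i)) {u : (Fin n → ℂ) → ℝ} {A : ℝ}
    (hu : ∀ x, (∀ i, f i (x i) ≠ 0) → |u x| ≤ A) :
    |∫ x : Fin n → ℂ, (∏ i, f i (x i)) * u x| ≤ A * ∏ i, ∫ z, |f i z| := by
  rw [← integral_fintype_prod_volume_eq_prod fun i z => |f i z|, ← integral_const_mul]
  have hi : Integrable fun x : Fin n → ℂ => A * ∏ i, |f i (x i)| := by
    simpa only [abs_prod] using (int_prod h).abs.const_mul A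
  rw [← Real.norm_eq_abs]
  refine norm_integral_le_of_norm_le hi (Eventually.of_forall fun x => ?_)
  rw [Real.norm_eq_abs, abs_mul, abs_prod, mul_comm]
  by_cases hx : ∀ i, f i (x i) ≠ 0
  · exact mul_le_mul_of_nonneg_right (hu x hx) (prod_nonneg fun _ _ => abs_nonneg _)
  · push Not at hx
    obtain ⟨i, hi⟩ := hx
    rw [prod_eq_zero (mem_univ i) (by rw [hi, abs_zero]), mul_zero, mul_zero]

end Vale.Agent.P144F
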